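import Vale.Agent.P369.H400.VecDefs
import Vale.Agent.P369.H809.Defs

set_option linter.all false

/-!
P369 (helper817), block V1c: derivatives of the vector families `ampV`, `conV`, `CkV`, `DkV` along a
differentiable path of gain vectors `k : ℝ → Fin n → ℝ`.
-/

namespace Vale.Agent.P369V8

open Matrix
open Vale.Agent.P369 (Conf up down)
open Vale.Agent.P369A
open Vale.Agent.P369W (ccV ampV conV CkV DkV)
open Vale.Agent.P369F (genAj genLj)

noncomputable section

variable {n : ℕ}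

/-! ### one mode -/

theorem hasDerivAt_c1 {k : ℝ} (hk : 1 < k) (m l : ℕ) :
    HasDerivAt (fun x : ℝ => c1 x m l)
      ((-(((m : ℝ) + 1) / (2 * k)) + (l : ℝ) / (2 * k * (k - 1))) * c1 k m l) k := by
  unfold c1
  have h := ((hasDerivAt_inv_sqrt_pow (k := k) (by linarith only [hk]) (m + 1)).mul
    (hasDerivAt_sqrt_one_sub_pow hk l)).const_mul (Real.sqrt ((m + l).choose l : ℕ))
  refine (h.congr_deriv ?_).congr_of_eventuallyEq ?_
  · push_cast
    ring
  · exact Filter.Eventually.of_forall fun x => by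
      simp only [Pi.mul_apply]
      ring

/-- the step of `c1` -/
theorem c1_up (k : ℝ) (m l : ℕ) :
    Real.sqrt ((l : ℝ) + 1) * c1 k m (l + 1) =
      Real.sqrt ((m : ℝ) + l + 1) * Real.sqrt (1 - 1 / k) * c1 k m l := by
  unfold c1
  have h1 : Real.sqrt ((l : ℝ) + 1) * Real.sqrt ((m + (l + 1)).choose (l + 1) : ℕ) =
      Real.sqrt ((m : ℝ) + l + 1) * Real.sqrt ((m + l).choose l : ℕ) := by
    rw [← Real.sqrt_mul (by positivity), ← Real.sqrt_mul (by positivity)]
    congr 1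
    have h2 := Nat.add_one_mul_choose_eq (m + l) l
    have h3 : (((m + l + 1) * (m + l).choose l : ℕ) : ℝ) =
        (((m + l + 1).choose (l + 1) * (l + 1) : ℕ) : ℝ) := by
      exact_mod_cast h2
    push_cast at h3
    have h4 : m + (l + 1) = m + l + 1 := by ring
    rw [h4, h3]
    ring
  calc _ = (Real.sqrt ((l : ℝ) + 1) * Real.sqrt ((m + (l + 1)).choose (l + 1) : ℕ)) *
        ((Real.sqrt k)⁻¹ ^ (m + 1) * Real.sqrt (1 - 1 / k) ^ (l + 1)) := by ring
    _ = _ := by rw [h1]; ring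

/-! ### all modes -/

theorem ccV_up (k : Fin n → ℝ) (m l : Conf n) (j : Fin n) :
    Real.sqrt ((l j : ℝ) + 1) * ccV k m (up l j) =
      Real.sqrt ((m j : ℝ) + l j + 1) * Real.sqrt (1 - 1 / k j) * ccV k m l := by
  unfold ccV
  rw [← Finset.mul_prod_erase Finset.univ _ (Finset.mem_univ j),
    ← Finset.mul_prod_erase Finset.univ (fun j => c1 (k j) (m j) (l j)) (Finset.mem_univ j)]
  have e : ∏ x ∈ Finset.univ.erase j, c1 (k x) (m x) (up l j x) =
      ∏ x ∈ Finset.univ.erase j, c1 (k x) (m x) (l x) := by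
    refine Finset.prod_congr rfl fun i hi => ?_
    rw [up_ne _ (Finset.ne_of_mem_erase hi)]
  rw [e, up_same, ← mul_assoc, c1_up, mul_assoc]

/-- derivative of `ccV` along a path -/
theorem hasDerivAt_ccV {k : ℝ → Fin n → ℝ} {k' : Fin n → ℝ} {t : ℝ} (hk : ∀ j, 1 < k t j)
    (hd : ∀ j, HasDerivAt (fun u => k u j) (k' j) t) (m l : Conf n) :
    HasDerivAt (fun u => ccV (k u) m l)
      ((∑ j, k' j * (-(((m j : ℝ) + 1) / (2 * k t j)) + (l j : ℝ) / (2 * k t j * (k t j - 1)))) *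
        ccV (k t) m l) t := by
  unfold ccV
  have h := HasDerivAt.fun_finset_prod (u := (Finset.univ : Finset (Fin n)))
    (f := fun j u => c1 (k u j) (m j) (l j)) (x := t)
    (f' := fun j => ((-(((m j : ℝ) + 1) / (2 * k t j)) + (l j : ℝ) / (2 * k t j * (k t j - 1))) *
      c1 (k t j) (m j) (l j)) * k' j)
    (fun j _ => HasDerivAt.comp (h₂ := fun x => c1 x (m j) (l j)) (h := fun u => k u j) t
      (hasDerivAt_c1 (hk j) (m j) (l j)) (hd j))
  refine h.congr_deriv ?_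
  rw [Finset.sum_mul]
  refine Finset.sum_congr rfl fun j _ => ?_
  rw [← Finset.mul_prod_erase Finset.univ (fun j => c1 (k t j) (m j) (l j)) (Finset.mem_univ j),
    smul_eq_mul]
  ring

/-! ### the amplifier -/

/-- the terms of `ampV` -/
def tCV (k : Fin n → ℝ) (s : Conf n → Conf n → ℂ) (x y l : Conf n) : ℂ :=
  ((ccV k (x - l) l * ccV k (y - l) l : ℝ) : ℂ) * s (x - l) (y - l)

theorem ampV_eq (k : Fin n → ℝ) (s : Conf n → Conf n → ℂ) (x y : Conf n) :
    ampV k s x y = ∑ l ∈ Finset.Iic (x ⊓ y), tCV k s x y l := rfl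

theorem tCV_up {k : Fin n → ℝ} {j : Fin n} (hk : 1 < k j) (s : Conf n → Conf n → ℂ)
    {x y l : Conf n}
    (hx : 1 ≤ x j) (hy : 1 ≤ y j) (hlx : l ≤ down x j) (hly : l ≤ down y j) :
    (((up l j j : ℕ) : ℝ) * (k j / (k j - 1)) : ℝ) * tCV k s x y (up l j) =
      ((Real.sqrt (x j) * Real.sqrt (y j) : ℝ) : ℂ) * tCV k s (down x j) (down y j) l := by
  unfold tCV
  rw [sub_up, sub_up, ← mul_assoc, ← mul_assoc, ← Complex.ofReal_mul, ← Complex.ofReal_mul]
  congr 2
  have h1 := ccV_up k (down x j - l) l j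
  have h2 := ccV_up k (down y j - l) l j
  have e : ∀ z : Conf n, 1 ≤ z j → l ≤ down z j →
      (((down z j - l) j : ℕ) : ℝ) + l j + 1 = z j := by
    intro z hz hl
    have h3 : l j ≤ z j - 1 := by
      have h2 := hl j
      rwa [down_same] at h2
    rw [Pi.sub_apply, down_same]
    have h4 : z j - 1 - l j + l j + 1 = z j := by omega
    exact_mod_cast h4
  rw [e x hx hlx] at h1
  rw [e y hy hly] at h2
  have h3 : ((up l j j : ℕ) : ℝ) = Real.sqrt ((l j : ℝ) + 1) * Real.sqrt ((l j : ℝ) + 1) := by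
    rw [Real.mul_self_sqrt (by positivity), up_same]
    push_cast
    rfl
  rw [h3]
  calc _ = (Real.sqrt ((l j : ℝ) + 1) * ccV k (down x j - l) (up l j)) *
        (Real.sqrt ((l j : ℝ) + 1) * ccV k (down y j - l) (up l j)) * (k j / (k j - 1)) := by ring
    _ = (k j / (k j - 1) * (Real.sqrt (1 - 1 / k j) * Real.sqrt (1 - 1 / k j))) *
        (Real.sqrt (x j) * Real.sqrt (y j) * (ccV k (down x j - l) l * ccV k (down y j - l) l)) := by
      rw [h1, h2]; ring
    _ = _ := by rw [sqrt_one_sub_sq hk, one_mul]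

theorem sum_tCV {k : Fin n → ℝ} {j : Fin n} (hk : 1 < k j) (s : Conf n → Conf n → ℂ)
    (x y : Conf n) :
    ∑ l ∈ Finset.Iic (x ⊓ y), (((l j : ℝ) * (k j / (k j - 1)) : ℝ) : ℂ) * tCV k s x y l =
      ((Real.sqrt (x j) * Real.sqrt (y j) : ℝ) : ℂ) * ampV k s (down x j) (down y j) := by
  by_cases h : 1 ≤ x j ∧ 1 ≤ y j
  · rw [ampV_eq, Finset.mul_sum]
    rw [← Finset.sum_filter_add_sum_filter_not (Finset.Iic (x ⊓ y)) (fun l => 1 ≤ l j)]
    have e0 : ∑ l ∈ (Finset.Iic (x ⊓ y)).filter (fun l => ¬ 1 ≤ l j),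
        (((l j : ℝ) * (k j / (k j - 1)) : ℝ) : ℂ) * tCV k s x y l = 0 := by
      refine Finset.sum_eq_zero fun l hl => ?_
      have h1 := (Finset.mem_filter.1 hl).2
      have h2 : l j = 0 := by omega
      rw [h2]
      simp only [CharP.cast_eq_zero, zero_mul, Complex.ofReal_zero]
    rw [e0, add_zero]
    refine Finset.sum_nbij' (fun l => down l j) (fun l => up l j) ?_ ?_ ?_ ?_ ?_
    · intro l hl
      obtain ⟨h1, h2⟩ := Finset.mem_filter.1 hl
      have h3 := le_inf_iff.1 (Finset.mem_Iic.1 h1)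
      exact Finset.mem_Iic.2 (le_inf (down_le h3.1 j) (down_le h3.2 j))
    · intro l hl
      have h3 := le_inf_iff.1 (Finset.mem_Iic.1 hl)
      refine Finset.mem_filter.2 ⟨Finset.mem_Iic.2 (le_inf (up_le_of h.1 h3.1) (up_le_of h.2 h3.2)), ?_⟩
      rw [up_same]
      omega
    · intro l hl
      exact up_down (Finset.mem_filter.1 hl).2
    · intro l _
      exact down_up l j
    · intro l hl
      obtain ⟨h1, h2⟩ := Finset.mem_filter.1 hl
      have h3 := le_inf_iff.1 (Finset.mem_Iic.1 h1)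
      have := tCV_up hk s h.1 h.2 (down_le h3.1 j) (down_le h3.2 j)
      rw [up_down h2] at this
      exact this
  · have e0 : ((Real.sqrt (x j) * Real.sqrt (y j) : ℝ) : ℂ) = 0 := by
      have h1 : x j = 0 ∨ y j = 0 := by omega
      rcases h1 with h1 | h1
      · rw [h1]; simp only [CharP.cast_eq_zero, Real.sqrt_zero, zero_mul, Complex.ofReal_zero]
      · rw [h1]; simp only [CharP.cast_eq_zero, Real.sqrt_zero, mul_zero, Complex.ofReal_zero]
    rw [e0, zero_mul]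
    refine Finset.sum_eq_zero fun l hl => ?_
    have h3 := le_inf_iff.1 (Finset.mem_Iic.1 hl)
    have h4 : l j ≤ x j := h3.1 j
    have h5 : l j ≤ y j := h3.2 j
    have h2 : l j = 0 := by
      by_contra h6
      exact h ⟨by omega, by omega⟩
    rw [h2]
    simp only [CharP.cast_eq_zero, zero_mul, Complex.ofReal_zero]

theorem hasDerivAt_tCV {k : ℝ → Fin n → ℝ} {k' : Fin n → ℝ} {t : ℝ} (hk : ∀ j, 1 < k t j)
    (hd : ∀ j, HasDerivAt (fun u => k u j) (k' j) t) (s : Conf n → Conf n → ℂ) {x y l : Conf n}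
    (hx : l ≤ x) (hy : l ≤ y) :
    HasDerivAt (fun u => tCV (k u) s x y l)
      (∑ j, ((k' j / k t j : ℝ) : ℂ) *
        ((((l j : ℝ) * (k t j / (k t j - 1)) : ℝ) : ℂ) * tCV (k t) s x y l -
        ((((x j : ℝ) + (y j : ℝ)) / 2 + 1 : ℝ) : ℂ) * tCV (k t) s x y l)) t := by
  unfold tCV
  have h := (((hasDerivAt_ccV hk hd (x - l) l).mul (hasDerivAt_ccV hk hd (y - l) l)).ofReal_comp).mul_const
    (s (x - l) (y - l))
  refine h.congr_deriv ?_
  have e : (∑ j, k' j * (-(((((x - l) j : ℕ) : ℝ) + 1) / (2 * k t j)) +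
      (l j : ℝ) / (2 * k t j * (k t j - 1)))) +
      (∑ j, k' j * (-(((((y - l) j : ℕ) : ℝ) + 1) / (2 * k t j)) +
      (l j : ℝ) / (2 * k t j * (k t j - 1)))) =
      ∑ j, (k' j / k t j) * ((l j : ℝ) * (k t j / (k t j - 1)) -
        (((x j : ℝ) + (y j : ℝ)) / 2 + 1)) := by
    rw [← Finset.sum_add_distrib]
    refine Finset.sum_congr rfl fun j _ => ?_
    have h1 := hk j
    have hk0 : k t j ≠ 0 := by linarith only [h1]
    have hk1 : k t j - 1 ≠ 0 := by linarith only [h1]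
    have ex : (((x - l) j : ℕ) : ℝ) = x j - l j := by
      rw [Pi.sub_apply, Nat.cast_sub (hx j)]
    have ey : (((y - l) j : ℕ) : ℝ) = y j - l j := by
      rw [Pi.sub_apply, Nat.cast_sub (hy j)]
    rw [ex, ey]
    field_simp
    ring
  have e2 : ∀ j, ((k' j / k t j : ℝ) : ℂ) *
      ((((l j : ℝ) * (k t j / (k t j - 1)) : ℝ) : ℂ) *
        (((ccV (k t) (x - l) l * ccV (k t) (y - l) l : ℝ) : ℂ) * s (x - l) (y - l)) -
        ((((x j : ℝ) + (y j : ℝ)) / 2 + 1 : ℝ) : ℂ) *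
        (((ccV (k t) (x - l) l * ccV (k t) (y - l) l : ℝ) : ℂ) * s (x - l) (y - l))) =
      (((k' j / k t j) * ((l j : ℝ) * (k t j / (k t j - 1)) -
        (((x j : ℝ) + (y j : ℝ)) / 2 + 1)) : ℝ) : ℂ) *
        (((ccV (k t) (x - l) l * ccV (k t) (y - l) l : ℝ) : ℂ) * s (x - l) (y - l)) := by
    intro j
    push_cast
    ring
  rw [Finset.sum_congr rfl (fun j _ => e2 j), ← Finset.sum_mul, ← Complex.ofReal_sum, ← e]
  push_cast
  ring

/-- **the amplifier equation along a path of gains, entrywise** -/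
theorem hasDerivAt_ampV {k : ℝ → Fin n → ℝ} {k' : Fin n → ℝ} {t : ℝ} (hk : ∀ j, 1 < k t j)
    (hd : ∀ j, HasDerivAt (fun u => k u j) (k' j) t) (s : Ker n) (x y : Conf n) :
    HasDerivAt (fun u => ampV (k u) s x y)
      (∑ j, ((k' j / k t j : ℝ) : ℂ) * genAj (ampV (k t) s) j x y) t := by
  have h : HasDerivAt (fun u => ∑ l ∈ Finset.Iic (x ⊓ y), tCV (k u) s x y l)
      (∑ l ∈ Finset.Iic (x ⊓ y), ∑ j, ((k' j / k t j : ℝ) : ℂ) *
        ((((l j : ℝ) * (k t j / (k t j - 1)) : ℝ) : ℂ) * tCV (k t) s x y l -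
        ((((x j : ℝ) + (y j : ℝ)) / 2 + 1 : ℝ) : ℂ) * tCV (k t) s x y l)) t := by
    refine HasDerivAt.fun_sum fun l hl => ?_
    have h3 := le_inf_iff.1 (Finset.mem_Iic.1 hl)
    exact hasDerivAt_tCV hk hd s h3.1 h3.2
  refine h.congr_deriv ?_
  rw [Finset.sum_comm]
  refine Finset.sum_congr rfl fun j _ => ?_
  rw [← Finset.mul_sum, Finset.sum_sub_distrib, sum_tCV (hk j), ← Finset.mul_sum, ← ampV_eq]
  rfl

/-! ### the complement -/

/-- the terms of `conV` -/
def tDV (k : Fin n → ℝ) (s : Conf n → Conf n → ℂ) (l l' m m' : Conf n) : ℂ :=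
  if m + l = m' + l' then ((ccV k m l * ccV k m' l' : ℝ) : ℂ) * s m m' else 0

theorem conV_eq (k : Fin n → ℝ) (Y : ℕ) (s : Conf n → Conf n → ℂ) (l l' : Conf n) :
    conV k Y s l l' = ∑ m : Ct n Y, ∑ m' : Ct n Y, tDV k s l l' m.1 m'.1 := rfl

theorem tDV_up {k : Fin n → ℝ} {j : Fin n} (hk : 1 < k j) (s : Conf n → Conf n → ℂ)
    (l l' m m' : Conf n) :
    ((Real.sqrt ((l j : ℝ) + 1) * Real.sqrt ((l' j : ℝ) + 1) : ℝ) : ℂ) *
      tDV k s (up l j) (up l' j) m m' =
      ((((m j : ℝ) + l j + 1) * ((k j - 1) / k j) : ℝ) : ℂ) * tDV k s l l' m m' := by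
  unfold tDV
  by_cases h : m + l = m' + l'
  · rw [if_pos h, if_pos ((add_up_eq_iff m l m' l' j).2 h), ← mul_assoc, ← mul_assoc,
      ← Complex.ofReal_mul, ← Complex.ofReal_mul]
    congr 2
    have h1 := ccV_up k m l j
    have h2 := ccV_up k m' l' j
    have h3 : (m' j : ℝ) + l' j = (m j : ℝ) + l j := by
      have := congrFun h j
      rw [Pi.add_apply, Pi.add_apply] at this
      exact_mod_cast this.symm
    rw [h3] at h2
    have h4 : Real.sqrt ((m j : ℝ) + l j + 1) * Real.sqrt ((m j : ℝ) + l j + 1) =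
        (m j : ℝ) + l j + 1 := Real.mul_self_sqrt (by (clear * -; positivity))
    have h5 := sqrt_one_sub_sq hk
    have hk0 : 0 < k j := by linarith only [hk]
    have hk1 : k j - 1 ≠ 0 := by linarith only [hk]
    have h6 : Real.sqrt (1 - 1 / k j) * Real.sqrt (1 - 1 / k j) = (k j - 1) / k j := by
      field_simp at h5 ⊢
      linarith only [h5]
    calc _ = (Real.sqrt ((l j : ℝ) + 1) * ccV k m (up l j)) *
          (Real.sqrt ((l' j : ℝ) + 1) * ccV k m' (up l' j)) := by ring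
      _ = (Real.sqrt ((m j : ℝ) + l j + 1) * Real.sqrt ((m j : ℝ) + l j + 1)) *
          (Real.sqrt (1 - 1 / k j) * Real.sqrt (1 - 1 / k j)) * (ccV k m l * ccV k m' l') := by
        rw [h1, h2]; ring
      _ = _ := by rw [h4, h6]
  · rw [if_neg h, if_neg (fun h' => h ((add_up_eq_iff m l m' l' j).1 h')), mul_zero, mul_zero]

theorem hasDerivAt_tDV {k : ℝ → Fin n → ℝ} {k' : Fin n → ℝ} {t : ℝ} (hk : ∀ j, 1 < k t j)
    (hd : ∀ j, HasDerivAt (fun u => k u j) (k' j) t) (s : Conf n → Conf n → ℂ)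
    (l l' m m' : Conf n) :
    HasDerivAt (fun u => tDV (k u) s l l' m m')
      (∑ j, ((k' j / (k t j - 1) : ℝ) : ℂ) *
        (((((l j : ℝ) + (l' j : ℝ)) / 2 : ℝ) : ℂ) * tDV (k t) s l l' m m' -
        ((Real.sqrt ((l j : ℝ) + 1) * Real.sqrt ((l' j : ℝ) + 1) : ℝ) : ℂ) *
          tDV (k t) s (up l j) (up l' j) m m')) t := by
  rw [Finset.sum_congr rfl (fun j _ => by rw [tDV_up (hk j) s l l' m m'])]
  unfold tDV
  by_cases h : m + l = m' + l'
  · simp only [if_pos h]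
    have h0 := (((hasDerivAt_ccV hk hd m l).mul (hasDerivAt_ccV hk hd m' l')).ofReal_comp).mul_const
      (s m m')
    refine h0.congr_deriv ?_
    have e : (∑ j, k' j * (-(((m j : ℝ) + 1) / (2 * k t j)) +
        (l j : ℝ) / (2 * k t j * (k t j - 1)))) +
        (∑ j, k' j * (-(((m' j : ℝ) + 1) / (2 * k t j)) +
        (l' j : ℝ) / (2 * k t j * (k t j - 1)))) =
        ∑ j, (k' j / (k t j - 1)) * (((l j : ℝ) + (l' j : ℝ)) / 2 -
          ((m j : ℝ) + l j + 1) * ((k t j - 1) / k t j)) := by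
      rw [← Finset.sum_add_distrib]
      refine Finset.sum_congr rfl fun j _ => ?_
      have h1 := hk j
      have hk0 : k t j ≠ 0 := by linarith only [h1]
      have hk1 : k t j - 1 ≠ 0 := by linarith only [h1]
      have h3 : (m' j : ℝ) = (m j : ℝ) + l j - l' j := by
        have := congrFun h j
        rw [Pi.add_apply, Pi.add_apply] at this
        have h4 : (m j : ℝ) + l j = m' j + l' j := by exact_mod_cast this
        linarith only [h4]
      rw [h3]
      field_simp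
      ring
    have e2 : ∀ j, ((k' j / (k t j - 1) : ℝ) : ℂ) *
        (((((l j : ℝ) + (l' j : ℝ)) / 2 : ℝ) : ℂ) *
          (((ccV (k t) m l * ccV (k t) m' l' : ℝ) : ℂ) * s m m') -
        ((((m j : ℝ) + l j + 1) * ((k t j - 1) / k t j) : ℝ) : ℂ) *
          (((ccV (k t) m l * ccV (k t) m' l' : ℝ) : ℂ) * s m m')) =
        (((k' j / (k t j - 1)) * (((l j : ℝ) + (l' j : ℝ)) / 2 -
          ((m j : ℝ) + l j + 1) * ((k t j - 1) / k t j)) : ℝ) : ℂ) *
          (((ccV (k t) m l * ccV (k t) m' l' : ℝ) : ℂ) * s m m') := by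
      intro j
      push_cast
      ring
    rw [Finset.sum_congr rfl (fun j _ => e2 j), ← Finset.sum_mul, ← Complex.ofReal_sum, ← e]
    push_cast
    ring
  · simp only [if_neg h, mul_zero, sub_zero, Finset.sum_const_zero]
    exact hasDerivAt_const t (0 : ℂ)

/-- **the equation of the complementary channel along a path of gains, entrywise** -/
theorem hasDerivAt_conV {k : ℝ → Fin n → ℝ} {k' : Fin n → ℝ} {t : ℝ} (hk : ∀ j, 1 < k t j)
    (hd : ∀ j, HasDerivAt (fun u => k u j) (k' j) t) (Y : ℕ) (s : Ker n) (l l' : Conf n) :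
    HasDerivAt (fun u => conV (k u) Y s l l')
      (-∑ j, ((k' j / (k t j - 1) : ℝ) : ℂ) * genLj (conV (k t) Y s) j l l') t := by
  have h : HasDerivAt (fun u => ∑ m : Ct n Y, ∑ m' : Ct n Y, tDV (k u) s l l' m.1 m'.1)
      (∑ m : Ct n Y, ∑ m' : Ct n Y, ∑ j, ((k' j / (k t j - 1) : ℝ) : ℂ) *
        (((((l j : ℝ) + (l' j : ℝ)) / 2 : ℝ) : ℂ) * tDV (k t) s l l' m.1 m'.1 -
        ((Real.sqrt ((l j : ℝ) + 1) * Real.sqrt ((l' j : ℝ) + 1) : ℝ) : ℂ) *
          tDV (k t) s (up l j) (up l' j) m.1 m'.1)) t :=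
    HasDerivAt.fun_sum fun m _ => HasDerivAt.fun_sum fun m' _ =>
      hasDerivAt_tDV hk hd s l l' m.1 m'.1
  refine h.congr_deriv ?_
  rw [Finset.sum_congr rfl (fun m _ => Finset.sum_comm), Finset.sum_comm, ← Finset.sum_neg_distrib]
  refine Finset.sum_congr rfl fun j _ => ?_
  unfold genLj
  rw [conV_eq, conV_eq]
  simp only [← Finset.mul_sum, Finset.sum_sub_distrib]
  ring

variable {M : ℕ} {ρ : Matrix (Fin n → Fin (M + 1)) (Fin n → Fin (M + 1)) ℂ}

/-- the amplifier family along a path -/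
theorem hasDerivAt_CkV {k : ℝ → Fin n → ℝ} {k' : Fin n → ℝ} {t : ℝ} (hk : ∀ j, 1 < k t j)
    (hd : ∀ j, HasDerivAt (fun u => k u j) (k' j) t) (x y : Conf n) :
    HasDerivAt (fun u => CkV ρ (k u) x y)
      (∑ j, ((k' j / k t j : ℝ) : ℂ) * genAj (CkV ρ (k t)) j x y) t :=
  hasDerivAt_ampV hk hd (ext ρ) x y

/-- the environment family along a path -/
theorem hasDerivAt_DkV {k : ℝ → Fin n → ℝ} {k' : Fin n → ℝ} {t : ℝ} (hk : ∀ j, 1 < k t j)
    (hd : ∀ j, HasDerivAt (fun u => k u j) (k' j) t) (x y : Conf n) :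
    HasDerivAt (fun u => DkV ρ (k u) x y)
      (-∑ j, ((k' j / (k t j - 1) : ℝ) : ℂ) * genLj (DkV ρ (k t)) j x y) t :=
  hasDerivAt_conV hk hd (n * M) (ext ρ) x y

/-- the radial path `t ↦ t κ` of the amplifier family: `t⁻¹ Σ_j G_j` -/
theorem hasDerivAt_ampV_radial {κ : Fin n → ℝ} {t : ℝ} (ht : 0 < t) (hκ : ∀ j, 0 < κ j)
    (hk : ∀ j, 1 < t * κ j) (s : Ker n) (x y : Conf n) :
    HasDerivAt (fun u => ampV (fun j => u * κ j) s x y)
      (((1 / t : ℝ) : ℂ) * genA (ampV (fun j => t * κ j) s) x y) t := by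
  have h := hasDerivAt_ampV (k := fun u j => u * κ j) (k' := κ) (t := t) hk
    (fun j => by simpa using (hasDerivAt_id t).mul_const (κ j)) s x y
  refine h.congr_deriv ?_
  rw [P369F.genA_eq_sum, Finset.mul_sum]
  refine Finset.sum_congr rfl fun j _ => ?_
  congr 2
  have := hκ j
  field_simp

end

end Vale.Agent.P369V8
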