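import Vale.Agent.P369.H817.Deriv
import Vale.Agent.P369.H809.Flow
import Vale.Agent.P369.H400.VecD

set_option linter.all false

/-!
P369 (helper817), block Z3v-d: the amplifier family `CkV` and the environment family `DkV` as
`GPath`s; the flow inequalities.
-/

namespace Vale.Agent.P369V8

open Matrix MeasureTheory Set Filter
open Vale.Agent.P369 (Conf up down)
open Vale.Agent.P369V (ent)
open Vale.Agent.P369A
open Vale.Agent.P369W (ccV ampV conV CkV DkV en0j posDef_CkV posDef_DkV reg_CkV reg_DkV)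
open Vale.Agent.P369F (genAj genLj FXj IXj Ppj Pmj GPath)
open scoped ComplexOrder Topology

noncomputable section

variable {n : ℕ} {M : ℕ} {ρ : Matrix (Fin n → Fin (M + 1)) (Fin n → Fin (M + 1)) ℂ}

theorem en0j_nonneg (hρ : ρ.PosSemidef) (j : Fin n) : 0 ≤ en0j ρ j :=
  Finset.sum_nonneg fun x _ => mul_nonneg (Nat.cast_nonneg _)
    (Complex.le_def.1 (hρ.diag_nonneg (i := x))).1

/-- the gains stay above `1` near a point -/
theorem eventually_one_lt {k : ℝ → Fin n → ℝ} {t : ℝ} (hk : ∀ j, 1 < k t j)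
    (hc : ∀ j, ContinuousAt (fun u => k u j) t) : ∀ᶠ u in 𝓝 t, ∀ j, 1 < k u j :=
  eventually_all.2 fun j => (hc j).eventually (eventually_gt_nhds (hk j))

/-- the amplifier family along a path with nondecreasing gains -/
theorem gpath_CkV (hρ : ρ.PosDef) (ht : ρ.trace = 1) {k k' : ℝ → Fin n → ℝ} {a b E : ℝ}
    (hk : ∀ t ∈ Icc a b, ∀ j, 1 < k t j)
    (hd : ∀ t ∈ Icc a b, ∀ j, HasDerivAt (fun u => k u j) (k' t j) t)
    (hk' : ∀ t ∈ Icc a b, ∀ j, 0 ≤ k' t j)
    (hck' : ∀ j, ContinuousOn (fun t => k' t j) (Icc a b))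
    (hE : ∀ t ∈ Icc a b, ∑ j, (k t j * en0j ρ j + (k t j - 1)) ≤ E) :
    GPath (fun t => CkV ρ (k t)) (fun j t => k' t j / k t j) (fun _ _ => 0) a b E where
  reg := fun t h => ⟨_, reg_CkV hρ ht (hk t h), hE t h⟩
  herm := fun t h X => by
    filter_upwards [eventually_one_lt (hk t h) fun j => (hd t h j).continuousAt] with u hu
    exact (posDef_CkV hρ hu X).isHermitian
  der := fun t h x y => by
    refine (hasDerivAt_CkV (hk t h) (hd t h) x y).congr_deriv ?_
    simp only [Complex.ofReal_zero, zero_mul, add_zero]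
  cα := fun j => (hck' j).div (fun t h => (hd t h j).continuousAt.continuousWithinAt) fun t h => by
    have := hk t h j
    linarith only [this]
  cβ := fun j => continuousOn_const
  α0 := fun j t h => div_nonneg (hk' t h j) (by have := hk t h j; linarith only [this])
  β0 := fun j t h => le_rfl

/-- the amplifier family along a path with nonincreasing gains, as a path of increasing time:
`DkV` of `k (a + b - t)` -/
theorem gpath_DkV (hρ : ρ.PosDef) (ht : ρ.trace = 1) {k k' : ℝ → Fin n → ℝ} {a b E : ℝ}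
    (hk : ∀ t ∈ Icc a b, ∀ j, 1 < k t j)
    (hd : ∀ t ∈ Icc a b, ∀ j, HasDerivAt (fun u => k u j) (-(k' t j)) t)
    (hk' : ∀ t ∈ Icc a b, ∀ j, 0 ≤ k' t j)
    (hck' : ∀ j, ContinuousOn (fun t => k' t j) (Icc a b))
    (hE : ∀ t ∈ Icc a b, ∑ j, (k t j - 1) * (en0j ρ j + 1) ≤ E) :
    GPath (fun t => DkV ρ (k t)) (fun _ _ => 0) (fun j t => k' t j / (k t j - 1)) a b E where
  reg := fun t h => ⟨_, reg_DkV hρ ht (hk t h), hE t h⟩
  herm := fun t h X => by
    filter_upwards [eventually_one_lt (hk t h) fun j => (hd t h j).continuousAt] with u hu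
    exact (posDef_DkV hρ hu X).isHermitian
  der := fun t h x y => by
    refine (hasDerivAt_DkV (hk t h) (hd t h) x y).congr_deriv ?_
    rw [← Finset.sum_neg_distrib]
    refine Finset.sum_congr rfl fun j _ => ?_
    push_cast
    ring
  cα := fun j => continuousOn_const
  cβ := fun j => (hck' j).div
    ((show ContinuousOn (fun t => k t j) (Icc a b) from
      fun t h => (hd t h j).continuousAt.continuousWithinAt).sub continuousOn_const) fun t h => by
    have := hk t h j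
    show k t j - 1 ≠ 0
    linarith only [this]
  α0 := fun j t h => le_rfl
  β0 := fun j t h => div_nonneg (hk' t h j) (by have := hk t h j; linarith only [this])

/-! ### the radial families of `Z3` -/

theorem gpath_CV (hρ : ρ.PosDef) (ht : ρ.trace = 1) {κ : Fin n → ℝ} {a b : ℝ} (ha : 0 < a)
    (hκ : ∀ j, 1 < a * κ j) :
    GPath (fun t => CkV ρ (fun j => t * κ j)) (fun _ t => 1 / t) (fun _ _ => 0) a b
      (∑ j, (b * κ j * en0j ρ j + (b * κ j - 1))) := by
  have hκ0 : ∀ j, 0 < κ j := fun j => by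
    have h1 := hκ j
    by_contra h2
    have h3 := mul_nonpos_of_nonneg_of_nonpos ha.le (not_lt.1 h2)
    linarith only [h1, h3]
  have hk : ∀ t ∈ Icc a b, ∀ j, 1 < t * κ j := fun t h j =>
    (hκ j).trans_le (mul_le_mul_of_nonneg_right h.1 (hκ0 j).le)
  have h := gpath_CkV (ρ := ρ) hρ ht (k := fun t j => t * κ j) (k' := fun _ j => κ j) (a := a)
    (b := b) (E := ∑ j, (b * κ j * en0j ρ j + (b * κ j - 1))) hk
    (fun t _ j => by simpa using (hasDerivAt_id t).mul_const (κ j))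
    (fun t _ j => (hκ0 j).le) (fun j => continuousOn_const) (fun t h => by
      refine Finset.sum_le_sum fun j _ => ?_
      have h1 := mul_le_mul_of_nonneg_right h.2 (hκ0 j).le
      have h2 := mul_le_mul_of_nonneg_right h1 (en0j_nonneg hρ.posSemidef j)
      show t * κ j * en0j ρ j + (t * κ j - 1) ≤ _
      linarith only [h1, h2])
  refine ⟨h.reg, h.herm, fun t hh x y => ?_, fun j => ?_, h.cβ, fun j t hh => ?_, h.β0⟩
  · refine (h.der t hh x y).congr_deriv ?_
    refine Finset.sum_congr rfl fun j _ => ?_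
    have h1 : t ≠ 0 := by have := hh.1; linarith only [this, ha]
    have h2 := (hκ0 j).ne'
    congr 3
    show κ j / (t * κ j) = 1 / t
    field_simp
  · refine continuousOn_const.div continuousOn_id fun t hh => ?_
    have h1 : a ≤ t := hh.1
    exact (ha.trans_le h1).ne'
  · have h1 : a ≤ t := hh.1
    exact one_div_nonneg.2 (ha.le.trans h1)

/-- Z1 for vector gains: amplifier flow, per-mode production -/
theorem flow_CV (hρ : ρ.PosDef) (ht : ρ.trace = 1) {κ : Fin n → ℝ} {a b : ℝ} (ha : 0 < a)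
    (hκ : ∀ j, 1 < a * κ j) (hab : a ≤ b) :
    (∀ X, ∫ t in a..b, 1 / t * ∑ j, Ppj (CkV ρ (fun i => t * κ i)) X j ≤
      Sl (CkV ρ (fun i => b * κ i)) - Sl (CkV ρ (fun i => a * κ i))) ∧
      ∀ ε > 0, ∀ᶠ X in atTop,
        Sl (CkV ρ (fun i => b * κ i)) - Sl (CkV ρ (fun i => a * κ i)) - ε ≤
          ∫ t in a..b, 1 / t * ∑ j, Ppj (CkV ρ (fun i => t * κ i)) X j := by
  have h := gpath_CV (b := b) hρ ht ha hκ
  have e : ∀ X t, P369F.GPath.rateX (fun t => CkV ρ (fun j => t * κ j)) (fun _ t => 1 / t)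
      (fun _ _ => 0) X t = 1 / t * ∑ j, Ppj (CkV ρ (fun i => t * κ i)) X j := by
    intro X t
    unfold P369F.GPath.rateX
    rw [Finset.mul_sum]
    refine Finset.sum_congr rfl fun j _ => ?_
    rw [zero_mul, add_zero]
  constructor
  · intro X
    have h1 := h.flow_low hab X
    simp only [e] at h1
    exact h1
  · intro ε hε
    filter_upwards [h.flow_up hab hε] with X hX
    simp only [e] at hX
    exact hX

/-- the environment path, run backwards -/
theorem gpath_DV (hρ : ρ.PosDef) (ht : ρ.trace = 1) {κ : Fin n → ℝ} {a b : ℝ} (ha : 1 < a)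
    (hκ0 : ∀ j, 0 < κ j) :
    GPath (fun t => DkV ρ (fun j => 1 + (a + b - t - 1) * κ j)) (fun _ _ => 0)
      (fun _ t => 1 / (a + b - t - 1)) a b (∑ j, (b - 1) * κ j * (en0j ρ j + 1)) := by
  have hpos : ∀ t ∈ Icc a b, 0 < a + b - t - 1 := fun t h => by
    have := h.2
    linarith only [this, ha]
  have hle : ∀ t ∈ Icc a b, a + b - t - 1 ≤ b - 1 := fun t h => by
    have := h.1
    linarith only [this]
  have h := gpath_DkV (ρ := ρ) hρ ht (k := fun t j => 1 + (a + b - t - 1) * κ j)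
    (k' := fun _ j => κ j) (a := a) (b := b) (E := ∑ j, (b - 1) * κ j * (en0j ρ j + 1))
    (fun t h j => by
      have := mul_pos (hpos t h) (hκ0 j)
      show 1 < 1 + (a + b - t - 1) * κ j
      linarith only [this])
    (fun t _ j => by
      have h1 : HasDerivAt (fun u : ℝ => a + b - u - 1) (-1) t := by
        simpa using ((hasDerivAt_id t).const_sub (a + b)).sub_const 1
      have h2 := (h1.mul_const (κ j)).const_add 1
      simpa using h2)
    (fun t _ j => (hκ0 j).le) (fun j => continuousOn_const) (fun t h => by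
      refine Finset.sum_le_sum fun j _ => ?_
      have h1 := mul_le_mul_of_nonneg_right (hle t h) (hκ0 j).le
      have h3 : 0 ≤ en0j ρ j + 1 := by
        have := en0j_nonneg hρ.posSemidef j
        linarith only [this]
      have h2 := mul_le_mul_of_nonneg_right h1 h3
      show (1 + (a + b - t - 1) * κ j - 1) * (en0j ρ j + 1) ≤ _
      rw [add_sub_cancel_left]
      exact h2)
  refine ⟨h.reg, h.herm, fun t hh x y => ?_, h.cα, fun j => ?_, h.α0, fun j t hh => ?_⟩
  · refine (h.der t hh x y).congr_deriv ?_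
    refine Finset.sum_congr rfl fun j _ => ?_
    have h1 := (hpos t hh).ne'
    have h2 := (hκ0 j).ne'
    congr 3
    show κ j / (1 + (a + b - t - 1) * κ j - 1) = 1 / (a + b - t - 1)
    rw [add_sub_cancel_left]
    field_simp
  · exact continuousOn_const.div (by fun_prop) fun t hh => (hpos t hh).ne'
  · exact one_div_nonneg.2 (hpos t hh).le

/-- Z2 for vector gains: environment flow, per-mode production -/
theorem flow_DV (hρ : ρ.PosDef) (ht : ρ.trace = 1) {κ : Fin n → ℝ} {a b : ℝ} (ha : 1 < a)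
    (hκ : ∀ j, 0 < κ j) (hab : a ≤ b) :
    (∀ X, Sl (DkV ρ (fun i => 1 + (b - 1) * κ i)) - Sl (DkV ρ (fun i => 1 + (a - 1) * κ i)) ≤
      ∫ t in a..b, 1 / (t - 1) *
        ∑ j, (1 - ∫ m in (0 : ℝ)..1, m * FXj m (DkV ρ (fun i => 1 + (t - 1) * κ i)) X j)) ∧
      ∀ ε > 0, ∀ᶠ X in atTop,
        ∫ t in a..b, 1 / (t - 1) *
          ∑ j, (1 - ∫ m in (0 : ℝ)..1, m * FXj m (DkV ρ (fun i => 1 + (t - 1) * κ i)) X j) ≤
        Sl (DkV ρ (fun i => 1 + (b - 1) * κ i)) - Sl (DkV ρ (fun i => 1 + (a - 1) * κ i)) + ε := by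
  have h := gpath_DV (b := b) hρ ht ha hκ
  have e : ∀ X t, P369F.GPath.rateX (fun t => DkV ρ (fun j => 1 + (a + b - t - 1) * κ j))
      (fun _ _ => 0) (fun _ t => 1 / (a + b - t - 1)) X t =
      -(fun u => 1 / (u - 1) * ∑ j, (1 - ∫ m in (0 : ℝ)..1,
        m * FXj m (DkV ρ (fun i => 1 + (u - 1) * κ i)) X j)) (a + b - t) := by
    intro X t
    unfold P369F.GPath.rateX
    simp only [zero_mul, zero_add]
    rw [← Finset.mul_sum, ← mul_neg, ← Finset.sum_neg_distrib]
    congr 1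
    exact Finset.sum_congr rfl fun j _ => by ring
  have e2 : ∀ X, ∫ t in a..b, P369F.GPath.rateX
      (fun t => DkV ρ (fun j => 1 + (a + b - t - 1) * κ j))
      (fun _ _ => 0) (fun _ t => 1 / (a + b - t - 1)) X t =
      -∫ t in a..b, 1 / (t - 1) *
        ∑ j, (1 - ∫ m in (0 : ℝ)..1, m * FXj m (DkV ρ (fun i => 1 + (t - 1) * κ i)) X j) := by
    intro X
    rw [intervalIntegral.integral_congr (fun t _ => e X t), intervalIntegral.integral_neg,
      intervalIntegral.integral_comp_sub_left (fun u => 1 / (u - 1) * ∑ j, (1 - ∫ m in (0 : ℝ)..1,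
        m * FXj m (DkV ρ (fun i => 1 + (u - 1) * κ i)) X j)) (a + b), add_sub_cancel_right,
      add_sub_cancel_left]
  have eb : (fun j => 1 + (a + b - b - 1) * κ j) = fun j => 1 + (a - 1) * κ j := by
    rw [add_sub_cancel_right]
  have ea : (fun j => 1 + (a + b - a - 1) * κ j) = fun j => 1 + (b - 1) * κ j := by
    rw [add_sub_cancel_left]
  constructor
  · intro X
    have h1 := h.flow_low hab X
    simp only [e2, ea, eb] at h1
    linarith only [h1]
  · intro ε hε
    filter_upwards [h.flow_up hab hε] with X hX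
    simp only [e2, ea, eb] at hX
    linarith only [hX]

/-! ### monotonicity of the entropy in the gains -/

theorem Ppj_nonneg {s : Ker n} {E : ℝ} (h : Reg s E) (X : ℕ) (j : Fin n) : 0 ≤ Ppj s X j := by
  unfold P369F.Ppj
  refine add_nonneg (Finset.sum_nonneg fun x _ => ?_) ?_
  · exact diag_nonneg_of_cut (fun X => (h.pos X).posSemidef) x.1
  · exact P369F.int_nonneg_w h.pos (w := fun m => 1 - m) (fun m hm => by linarith [hm.2]) X j

theorem Sl_CkV_mono (hρ : ρ.PosDef) (ht : ρ.trace = 1) {k₁ k₂ : Fin n → ℝ} (hk : ∀ j, 1 < k₁ j)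
    (h12 : ∀ j, k₁ j ≤ k₂ j) : Sl (CkV ρ k₁) ≤ Sl (CkV ρ k₂) := by
  have hp : ∀ t ∈ Icc (0 : ℝ) 1, ∀ j, 1 < k₁ j + t * (k₂ j - k₁ j) := fun t h j => by
    have h1 := hk j
    have h2 := mul_nonneg h.1 (sub_nonneg.2 (h12 j))
    linarith only [h1, h2]
  have h := gpath_CkV (ρ := ρ) hρ ht (k := fun t j => k₁ j + t * (k₂ j - k₁ j))
    (k' := fun _ j => k₂ j - k₁ j) (a := 0) (b := 1)
    (E := ∑ j, (k₂ j * en0j ρ j + (k₂ j - 1))) hp
    (fun t _ j => by simpa using ((hasDerivAt_id t).mul_const (k₂ j - k₁ j)).const_add (k₁ j))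
    (fun t _ j => sub_nonneg.2 (h12 j)) (fun j => continuousOn_const) (fun t h => by
      refine Finset.sum_le_sum fun j _ => ?_
      have h1 : k₁ j + t * (k₂ j - k₁ j) ≤ k₂ j := by
        have := mul_le_mul_of_nonneg_right h.2 (sub_nonneg.2 (h12 j))
        linarith only [this]
      have h2 := mul_le_mul_of_nonneg_right h1 (en0j_nonneg hρ.posSemidef j)
      show (k₁ j + t * (k₂ j - k₁ j)) * en0j ρ j + ((k₁ j + t * (k₂ j - k₁ j)) - 1) ≤ _
      linarith only [h1, h2])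
  have h1 := h.flow_low zero_le_one 0
  have h2 : 0 ≤ ∫ t in (0 : ℝ)..1, P369F.GPath.rateX
      (fun t => CkV ρ ((fun t j => k₁ j + t * (k₂ j - k₁ j)) t))
      (fun j t => (fun _ j => k₂ j - k₁ j) t j / (fun t j => k₁ j + t * (k₂ j - k₁ j)) t j)
      (fun _ _ => 0) 0 t := by
    refine intervalIntegral.integral_nonneg zero_le_one fun t hh => ?_
    unfold P369F.GPath.rateX
    refine Finset.sum_nonneg fun j _ => ?_
    rw [zero_mul, add_zero]
    obtain ⟨E', hE', -⟩ := h.reg t hh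
    exact mul_nonneg (h.α0 j t hh) (Ppj_nonneg hE' 0 j)
  have e0 : (fun j => k₁ j + 0 * (k₂ j - k₁ j)) = k₁ := by
    funext j; ring
  have e1 : (fun j => k₁ j + 1 * (k₂ j - k₁ j)) = k₂ := by
    funext j; ring
  have h3 := h2.trans h1
  simp only [e0, e1] at h3
  linarith only [h3]

/-! ### continuity along the two families -/

theorem pos_CV (hρ : ρ.PosDef) {κ : Fin n → ℝ} (hκ : ∀ j, 1 < κ j) (T : ℝ) :
    ∀ t ∈ Icc 1 T, ∀ X, (cut X (CkV ρ (fun j => t * κ j))).PosDef := fun t ht X =>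
  posDef_CkV hρ (fun j => by
    have h1 := hκ j
    have h2 := mul_le_mul_of_nonneg_right ht.1 (show (0 : ℝ) ≤ κ j by linarith only [h1])
    linarith only [h1, h2]) X

theorem pos_DV (hρ : ρ.PosDef) {κ : Fin n → ℝ} (hκ : ∀ j, 0 < κ j) {t₁ : ℝ} (ht₁ : 1 < t₁)
    (T : ℝ) : ∀ t ∈ Icc t₁ T, ∀ X, (cut X (DkV ρ (fun j => 1 + (t - 1) * κ j))).PosDef :=
  fun t ht X => posDef_DkV hρ (fun j => by
    have h1 : 0 < t - 1 := by have := ht.1; linarith only [this, ht₁]
    have h2 := mul_pos h1 (hκ j)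
    linarith only [h2]) X

theorem continuousOn_IXj_CV (hρ : ρ.PosDef) {κ : Fin n → ℝ} (hκ : ∀ j, 1 < κ j) (T : ℝ)
    {r : ℝ → ℝ} (hr : ContinuousOn r (Icc 1 T)) (X : ℕ) (j : Fin n) :
    ContinuousOn (fun p : ℝ × ℝ => IXj p.2 (r p.1) (CkV ρ (fun i => p.1 * κ i)) X j)
      (Icc 1 T ×ˢ Icc 0 1) :=
  P369F.continuousOn_IXj (s := fun t => CkV ρ (fun i => t * κ i)) (pos_CV hρ hκ T)
    (P369W.z3_cont_CV (fun j => by have := hκ j; linarith only [this]) T) hr X j

theorem continuousOn_IXj_DV (hρ : ρ.PosDef) {κ : Fin n → ℝ} (hκ : ∀ j, 0 < κ j) {t₁ : ℝ}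
    (ht₁ : 1 < t₁) (T : ℝ) {r : ℝ → ℝ} (hr : ContinuousOn r (Icc t₁ T)) (X : ℕ) (j : Fin n) :
    ContinuousOn (fun p : ℝ × ℝ => IXj p.2 (r p.1) (DkV ρ (fun i => 1 + (p.1 - 1) * κ i)) X j)
      (Icc t₁ T ×ˢ Icc 0 1) :=
  P369F.continuousOn_IXj (s := fun t => DkV ρ (fun i => 1 + (t - 1) * κ i)) (pos_DV hρ hκ ht₁ T)
    (P369W.z3_cont_DV hκ ht₁.le T) hr X j

theorem continuousOn_FXj_CV (hρ : ρ.PosDef) {κ : Fin n → ℝ} (hκ : ∀ j, 1 < κ j) (T : ℝ)
    (X : ℕ) (j : Fin n) :
    ContinuousOn (fun p : ℝ × ℝ => FXj p.2 (CkV ρ (fun i => p.1 * κ i)) X j)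
      (Icc 1 T ×ˢ Icc 0 1) :=
  P369F.continuousOn_FXj (s := fun t => CkV ρ (fun i => t * κ i)) (pos_CV hρ hκ T)
    (P369W.z3_cont_CV (fun j => by have := hκ j; linarith only [this]) T) X j

theorem continuousOn_FXj_DV (hρ : ρ.PosDef) {κ : Fin n → ℝ} (hκ : ∀ j, 0 < κ j) {t₁ : ℝ}
    (ht₁ : 1 < t₁) (T : ℝ) (X : ℕ) (j : Fin n) :
    ContinuousOn (fun p : ℝ × ℝ => FXj p.2 (DkV ρ (fun i => 1 + (p.1 - 1) * κ i)) X j)
      (Icc t₁ T ×ˢ Icc 0 1) :=
  P369F.continuousOn_FXj (s := fun t => DkV ρ (fun i => 1 + (t - 1) * κ i)) (pos_DV hρ hκ ht₁ T)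
    (P369W.z3_cont_DV hκ ht₁.le T) X j

end

end Vale.Agent.P369V8
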