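import Vale.Agent.P369.H817.LossAmp
import Vale.Agent.P369.H946.BsJ

set_option linter.all false

/-!
P369 (helper817), block L2 in 946's form: `lossI θ (CkV (lossV x ρ) k) = CkV (lossV x' ρ) k'`.
-/

namespace Vale.Agent.P369V8

open Matrix Filter Topology
open Vale.Agent.P369 (Conf up down)
open Vale.Agent.P369A
open Vale.Agent.P369F (lk lkV lossV lossK)
open Vale.Agent.P369W (ccV ampV CkV)
open Vale.Agent.P369L (bsc lossI lt b1)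

noncomputable section

variable {n : ℕ} {M : ℕ} {ρ : Matrix (Fin n → Fin (M + 1)) (Fin n → Fin (M + 1)) ℂ}

theorem b1_mul_b1 {θ : ℝ} (hθ1 : θ ≤ 1) (p q c : ℕ) : b1 θ p c * b1 θ q c = ww θ p q c := by
  have h : Real.sqrt (1 - θ) ^ c * Real.sqrt (1 - θ) ^ c = (1 - θ) ^ c := by
    rw [← mul_pow, Real.mul_self_sqrt (sub_nonneg.2 hθ1)]
  unfold P369L.b1 ww
  rw [← h]
  ring

theorem bsc_mul_bsc {θ : ℝ} (hθ1 : θ ≤ 1) (a b l : Conf n) :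
    bsc θ a l * bsc θ b l = wwV (fun _ => θ) a b l := by
  unfold P369L.bsc wwV
  rw [← Finset.prod_mul_distrib]
  exact Finset.prod_congr rfl fun j _ => b1_mul_b1 hθ1 (a j) (b j) (l j)

theorem hasSum_lt_CkV {θ : ℝ} {k x : Fin n → ℝ} (hθ0 : 0 ≤ θ) (hθ1 : θ ≤ 1)
    (hk : ∀ j, 1 ≤ k j) (hx : ∀ j, 0 ≤ x j) (a b : Conf n) :
    HasSum (lt θ (CkV (lossV x ρ) k) a b)
      (CkV (lossV (fun j => xp θ (k j) (x j)) ρ) (fun j => kp θ (k j)) a b) := by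
  refine (hasSum_loss_CkV (ρ := ρ) (θ := fun _ => θ) (fun _ => hθ0) (fun _ => hθ1) hk hx a b).congr_fun
    fun l => ?_
  unfold P369L.lt
  rw [bsc_mul_bsc hθ1, wwV_eq_lkV]

/-- **L2** -/
theorem lossI_CkV {θ : ℝ} {k x : Fin n → ℝ} (hθ0 : 0 ≤ θ) (hθ1 : θ ≤ 1)
    (hk : ∀ j, 1 ≤ k j) (hx : ∀ j, 0 ≤ x j) :
    lossI θ (CkV (lossV x ρ) k) =
      CkV (lossV (fun j => xp θ (k j) (x j)) ρ) (fun j => kp θ (k j)) := by
  funext a b
  exact (hasSum_lt_CkV hθ0 hθ1 hk hx a b).tsum_eq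

theorem lossI_CkV_one {θ : ℝ} {k : Fin n → ℝ} (hθ0 : 0 ≤ θ) (hθ1 : θ ≤ 1)
    (hk : ∀ j, 1 ≤ k j) :
    lossI θ (CkV ρ k) =
      CkV (lossV (fun j => xp θ (k j) 1) ρ) (fun j => kp θ (k j)) := by
  have h := lossI_CkV (ρ := ρ) (x := fun _ => 1) hθ0 hθ1 hk (fun _ => zero_le_one)
  rw [lossV_one] at h
  exact h

end

end Vale.Agent.P369V8
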