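import Vale.Agent.P369.H400.VecB

set_option linter.all false

/-!
P369 (helper817): exponential bounds for the family `CkV ρ k`: the cut matrices are at least
`c q ^ N`, the diagonal is at most `C y ^ |x|`.
-/

namespace Vale.Agent.P369V8

open Matrix Filter Topology
open Vale.Agent.P369 (Conf up down)
open Vale.Agent.P369A
open Vale.Agent.P369W
open scoped ComplexOrder

noncomputable section

variable {n : ℕ}

/-! ### lower bound -/

/-- `cut N s` is at least `c diag (ccV k 0 x ^ 2)` -/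
theorem mar₁_sub_diag {k : Fin n → ℝ} {X : ℕ} {A : Matrix (Ct n X) (Ct n X) ℂ} {c : ℝ}
    (hA : (A - (c : ℂ) • Matrix.single (c0 n X) (c0 n X) (1 : ℂ)).PosSemidef) :
    (mar₁ (JwV (n := n) k X X X * A * (JwV (n := n) k X X X)ᴴ) -
      (c : ℂ) • Matrix.diagonal (fun x : Ct n X => ((ccV k 0 x.1 * ccV k 0 x.1 : ℝ) : ℂ))).PosSemidef := by
  set S : Matrix (Ct n X) (Ct n X) ℂ := Matrix.single (c0 n X) (c0 n X) (1 : ℂ) with hS
  have h1 : JwV (n := n) k X X X * A * (JwV (n := n) k X X X)ᴴ =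
      JwV (n := n) k X X X * (A - (c : ℂ) • S) * (JwV (n := n) k X X X)ᴴ +
      (c : ℂ) • (JwV (n := n) k X X X * S * (JwV (n := n) k X X X)ᴴ) := by
    rw [Matrix.mul_sub, Matrix.sub_mul, Matrix.mul_smul, Matrix.smul_mul]
    abel
  rw [h1, pos_mar₁_add]
  have h2 : mar₁ (JwV (n := n) k X X X * S * (JwV (n := n) k X X X)ᴴ) =
      Matrix.diagonal (fun x : Ct n X => ((ccV k 0 x.1 * ccV k 0 x.1 : ℝ) : ℂ)) := by
    ext x y
    simp only [mar₁, hS, JwV_single]
    rw [Finset.sum_eq_single x]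
    · by_cases hxy : x = y
      · subst hxy
        simp only [↓reduceIte, Complex.ofReal_mul, diagonal_apply_eq]
      · have hne : ¬ y.1 = x.1 := fun h => hxy (Subtype.ext h.symm)
        simp only [↓reduceIte, hne, mul_zero, Complex.ofReal_mul, ne_eq, hxy, not_false_eq_true, diagonal_apply_ne]
    · intro l _ hl
      have : ¬ x.1 = l.1 := fun h => hl (Subtype.ext h.symm)
      simp only [this, ↓reduceIte, mul_ite, zero_mul, mul_zero, ite_self]
    · intro h
      exact absurd (Finset.mem_univ _) h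
  rw [h2, add_sub_cancel_right]
  exact pos_mar₁ (hA.mul_mul_conjTranspose_same _)

/-- the thermal weight of gain `k` -/
theorem ccV_zero_sq {k : Fin n → ℝ} (hk : ∀ j, 1 ≤ k j) (l : Conf n) :
    ccV k 0 l * ccV k 0 l = ∏ j, ((1 / k j) * (1 - 1 / k j) ^ (l j)) := by
  rw [← sq, ccV_sq hk]
  refine Finset.prod_congr rfl fun j _ => ?_
  unfold nb
  simp only [Pi.zero_apply, zero_add, Nat.choose_self, Nat.cast_one, one_mul, pow_one]

theorem one_sub_pos' {k : ℝ} (hk : 1 < k) : 0 < 1 - 1 / k := by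
  rw [sub_pos, div_lt_one (by linarith only [hk])]
  exact hk

theorem one_sub_lt' {k : ℝ} (hk : 1 < k) : 1 - 1 / k < 1 := by
  have : 0 < 1 / k := by
    have : 0 < k := by linarith only [hk]
    positivity
  linarith only [this]

/-- **(a)** exponential lower bound of the cut matrices of `CkV ρ k` -/
theorem CkV_lower {M : ℕ} {ρ : Matrix (Fin n → Fin (M + 1)) (Fin n → Fin (M + 1)) ℂ}
    (hρ : ρ.PosDef) : ∃ c₀ : ℝ, 0 < c₀ ∧ ∀ k : Fin n → ℝ, (∀ j, 1 < k j) → ∀ N : ℕ,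
    (cut N (CkV ρ k) - (((c₀ * ∏ j, (1 / k j)) * (∏ j, (1 - 1 / k j)) ^ N : ℝ) : ℂ) •
      (1 : Matrix (Ct n N) (Ct n N) ℂ)).PosSemidef := by
  obtain ⟨c, hc, hA⟩ := exists_cut_ext hρ
  refine ⟨c, hc, fun k hk N => ?_⟩
  have h1 := mar₁_sub_diag (k := k) (hA N)
  rw [← cut_ampV_eq] at h1
  have h2 : ((c : ℂ) • Matrix.diagonal (fun x : Ct n N => ((ccV k 0 x.1 * ccV k 0 x.1 : ℝ) : ℂ)) -
      (((c * ∏ j, (1 / k j)) * (∏ j, (1 - 1 / k j)) ^ N : ℝ) : ℂ) •
      (1 : Matrix (Ct n N) (Ct n N) ℂ)).PosSemidef := by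
    have e : (c : ℂ) • Matrix.diagonal (fun x : Ct n N => ((ccV k 0 x.1 * ccV k 0 x.1 : ℝ) : ℂ)) -
      (((c * ∏ j, (1 / k j)) * (∏ j, (1 - 1 / k j)) ^ N : ℝ) : ℂ) •
      (1 : Matrix (Ct n N) (Ct n N) ℂ) =
      Matrix.diagonal (fun x : Ct n N => ((c * (ccV k 0 x.1 * ccV k 0 x.1) -
        (c * ∏ j, (1 / k j)) * (∏ j, (1 - 1 / k j)) ^ N : ℝ) : ℂ)) := by
      ext x y
      by_cases hxy : x = y
      · subst hxy
        simp only [Matrix.sub_apply, Matrix.smul_apply, diagonal_apply_eq, Matrix.one_apply_eq,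
          smul_eq_mul]
        push_cast
        ring
      · simp only [Matrix.sub_apply, Matrix.smul_apply, diagonal_apply_ne _ hxy,
          Matrix.one_apply_ne hxy, smul_eq_mul, mul_zero, sub_zero]
    rw [e]
    refine Matrix.PosSemidef.diagonal fun x => ?_
    have h3 : (∏ j, (1 / k j)) * (∏ j, (1 - 1 / k j)) ^ N ≤ ccV k 0 x.1 * ccV k 0 x.1 := by
      rw [ccV_zero_sq (fun j => (hk j).le), Finset.prod_mul_distrib, ← Finset.prod_pow]
      have hpos : 0 ≤ ∏ j, (1 / k j) := Finset.prod_nonneg fun j _ => by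
        have := hk j
        have h0 : 0 < k j := by linarith only [this]
        positivity
      refine mul_le_mul_of_nonneg_left ?_ hpos
      refine Finset.prod_le_prod (fun j _ => pow_nonneg (one_sub_pos' (hk j)).le _) fun j _ => ?_
      refine pow_le_pow_of_le_one (one_sub_pos' (hk j)).le (one_sub_lt' (hk j)).le ?_
      exact (Finset.single_le_sum (f := fun i => x.1 i) (fun _ _ => Nat.zero_le _)
        (Finset.mem_univ j)).trans x.2
    have h4 : 0 ≤ c * (ccV k 0 x.1 * ccV k 0 x.1) -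
        (c * ∏ j, (1 / k j)) * (∏ j, (1 - 1 / k j)) ^ N := by
      have := mul_le_mul_of_nonneg_left h3 hc.le
      linarith only [this]
    show (0 : ℂ) ≤ ((c * (ccV k 0 x.1 * ccV k 0 x.1) -
        (c * ∏ j, (1 / k j)) * (∏ j, (1 - 1 / k j)) ^ N : ℝ) : ℂ)
    exact_mod_cast h4
  have h3 := h1.add h2
  convert h3 using 1
  unfold CkV
  abel

/-- (a) in the form asked for -/
theorem CkV_lower' {M : ℕ} {ρ : Matrix (Fin n → Fin (M + 1)) (Fin n → Fin (M + 1)) ℂ}
    (hρ : ρ.PosDef) {k : Fin n → ℝ} (hk : ∀ j, 1 < k j) :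
    ∃ c q : ℝ, 0 < c ∧ 0 < q ∧ q ≤ 1 ∧ ∀ N : ℕ,
      (cut N (CkV ρ k) - ((c * q ^ N : ℝ) : ℂ) • (1 : Matrix (Ct n N) (Ct n N) ℂ)).PosSemidef := by
  obtain ⟨c₀, hc₀, h⟩ := CkV_lower hρ
  refine ⟨c₀ * ∏ j, (1 / k j), ∏ j, (1 - 1 / k j), ?_, ?_, ?_, h k hk⟩
  · refine mul_pos hc₀ (Finset.prod_pos fun j _ => ?_)
    have := hk j
    have h0 : 0 < k j := by linarith only [this]
    positivity
  · exact Finset.prod_pos fun j _ => one_sub_pos' (hk j)
  · exact Finset.prod_le_one (fun j _ => (one_sub_pos' (hk j)).le) fun j _ => (one_sub_lt' (hk j)).le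

/-! ### tail -/

/-- one mode: `nb k m l ≤ A ^ (m+1) y ^ l` -/
theorem nb_le {k y : ℝ} (hk : 1 ≤ k) (hy0 : 1 - 1 / k < y) (hy1 : y ≤ 1) (m l : ℕ) :
    nb k m l ≤ ((1 / k) / (1 - (1 - 1 / k) / y)) ^ (m + 1) * y ^ l := by
  have hk0 : 0 < k := by linarith only [hk]
  have h1 : 0 ≤ 1 - 1 / k := by
    rw [sub_nonneg, div_le_one hk0]
    exact hk
  have hy : 0 < y := lt_of_le_of_lt h1 hy0
  have hr0 : 0 ≤ (1 - 1 / k) / y := div_nonneg h1 hy.le
  have hr1 : (1 - 1 / k) / y < 1 := by rwa [div_lt_one hy]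
  have h2 : ‖(1 - 1 / k) / y‖ < 1 := by
    rw [Real.norm_eq_abs, abs_of_nonneg hr0]
    exact hr1
  have h := hasSum_choose_mul_geometric_of_norm_lt_one m h2
  have h3 := le_hasSum h l fun i _ => mul_nonneg (Nat.cast_nonneg _) (pow_nonneg hr0 _)
  have h4 : ((m + l).choose l : ℝ) * ((1 - 1 / k) / y) ^ l ≤
      1 / (1 - (1 - 1 / k) / y) ^ (m + 1) := by
    have e : (m + l).choose l = (l + m).choose m := by
      rw [← Nat.choose_symm_add, add_comm m l]
    rw [e]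
    exact h3
  unfold nb
  have h5 : (1 - 1 / k) ^ l = ((1 - 1 / k) / y) ^ l * y ^ l := by
    rw [← mul_pow, div_mul_cancel₀ _ hy.ne']
  rw [h5]
  calc ((m + l).choose l : ℝ) * (1 / k) ^ (m + 1) * (((1 - 1 / k) / y) ^ l * y ^ l)
      = (((m + l).choose l : ℝ) * ((1 - 1 / k) / y) ^ l) * ((1 / k) ^ (m + 1) * y ^ l) := by ring
    _ ≤ (1 / (1 - (1 - 1 / k) / y) ^ (m + 1)) * ((1 / k) ^ (m + 1) * y ^ l) := by
      refine mul_le_mul_of_nonneg_right h4 ?_
      have : 0 < 1 / k := by positivity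
      positivity
    _ = _ := by
      rw [div_pow (1 / k) (1 - (1 - 1 / k) / y) (m + 1), ← mul_assoc, one_div_mul_eq_div]

/-- `A ≥ 1` -/
theorem one_le_A {k y : ℝ} (hk : 1 ≤ k) (hy0 : 1 - 1 / k < y) (hy1 : y ≤ 1) :
    1 ≤ (1 / k) / (1 - (1 - 1 / k) / y) := by
  have hk0 : 0 < k := by linarith only [hk]
  have h1 : 0 ≤ 1 - 1 / k := by
    rw [sub_nonneg, div_le_one hk0]
    exact hk
  have hy : 0 < y := lt_of_le_of_lt h1 hy0
  have hr1 : (1 - 1 / k) / y < 1 := by rwa [div_lt_one hy]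
  rw [le_div_iff₀ (by linarith only [hr1]), one_mul]
  have : 1 - 1 / k ≤ (1 - 1 / k) / y := by
    rw [le_div_iff₀ hy]
    nlinarith only [h1, hy1]
  linarith only [this]

/-- the constant of the tail bound -/
def tailC (k : Fin n → ℝ) (y : ℝ) (M : ℕ) : ℝ :=
  (∏ j, ((1 / k j) / (1 - (1 - 1 / k j) / y)) ^ (M + 1)) * (y⁻¹) ^ (n * M)

theorem ccV_sq_le {k : Fin n → ℝ} (hk : ∀ j, 1 ≤ k j) {y : ℝ} (hy0 : ∀ j, 1 - 1 / k j < y)
    (hy1 : y ≤ 1) {M : ℕ} {m : Conf n} (hm : ∀ j, m j ≤ M) (l : Conf n) :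
    ccV k m l ^ 2 ≤ (∏ j, ((1 / k j) / (1 - (1 - 1 / k j) / y)) ^ (M + 1)) * y ^ (∑ j, l j) := by
  rw [ccV_sq hk, ← Finset.prod_pow_eq_pow_sum, ← Finset.prod_mul_distrib]
  refine Finset.prod_le_prod (fun j _ => ?_) fun j _ => ?_
  · unfold nb
    have h0 : 0 < k j := by have := hk j; linarith only [this]
    have h1 : 0 ≤ 1 - 1 / k j := by
      rw [sub_nonneg, div_le_one h0]
      exact hk j
    positivity
  · refine (nb_le (hk j) (hy0 j) hy1 (m j) (l j)).trans ?_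
    have h0 : 0 < k j := by have := hk j; linarith only [this]
    have h1 : 0 ≤ 1 - 1 / k j := by
      rw [sub_nonneg, div_le_one h0]
      exact hk j
    have hy : 0 < y := lt_of_le_of_lt h1 (hy0 j)
    refine mul_le_mul_of_nonneg_right ?_ (by positivity)
    exact pow_le_pow_right₀ (one_le_A (hk j) (hy0 j) hy1) (Nat.succ_le_succ (hm j))

theorem ccV_sq_le' {k : Fin n → ℝ} (hk : ∀ j, 1 ≤ k j) {y : ℝ} (hy : 0 < y)
    (hy0 : ∀ j, 1 - 1 / k j < y)
    (hy1 : y ≤ 1) {M : ℕ} (c : Fin n → Fin (M + 1)) (l : Conf n) :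
    ccV k (te c) l ^ 2 ≤ tailC k y M * y ^ (∑ j, (te c + l) j) := by
  have h1 := ccV_sq_le hk hy0 hy1 (m := te c) (M := M) (fun j => Nat.le_of_lt_succ (c j).2) l
  refine h1.trans ?_
  unfold tailC
  rw [mul_assoc]
  have hA : 0 ≤ ∏ j, ((1 / k j) / (1 - (1 - 1 / k j) / y)) ^ (M + 1) :=
    Finset.prod_nonneg fun j _ => pow_nonneg (le_trans zero_le_one (one_le_A (hk j) (hy0 j) hy1)) _
  refine mul_le_mul_of_nonneg_left ?_ hA
  have e : ∑ j, (te c + l) j = ∑ j, te c j + ∑ j, l j := by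
    rw [← Finset.sum_add_distrib]
    rfl
  rw [e, pow_add, ← mul_assoc]
  have h2 : 1 ≤ (y⁻¹) ^ (n * M) * y ^ (∑ j, te c j) := by
    have h3 : y ^ (n * M) ≤ y ^ (∑ j, te c j) := pow_le_pow_of_le_one hy.le hy1 (te_le c)
    rw [inv_pow, ← div_eq_inv_mul, one_le_div (by positivity)]
    exact h3
  calc y ^ (∑ j, l j) = 1 * y ^ (∑ j, l j) := (one_mul _).symm
    _ ≤ _ := mul_le_mul_of_nonneg_right h2 (by positivity)

theorem tailC_nonneg {k : Fin n → ℝ} (hk : ∀ j, 1 ≤ k j) {y : ℝ} (hy : 0 < y)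
    (hy0 : ∀ j, 1 - 1 / k j < y) (hy1 : y ≤ 1) (M : ℕ) : 0 ≤ tailC k y M :=
  mul_nonneg (Finset.prod_nonneg fun j _ => pow_nonneg
    (le_trans zero_le_one (one_le_A (hk j) (hy0 j) hy1)) _) (by positivity)

/-- **(b)** exponential tail of the diagonal of `CkV ρ k`, explicit constant -/
theorem CkV_tail {M : ℕ} {ρ : Matrix (Fin n → Fin (M + 1)) (Fin n → Fin (M + 1)) ℂ}
    (hρ : ρ.PosSemidef) (ht : ρ.trace = 1) {k : Fin n → ℝ} (hk : ∀ j, 1 ≤ k j) {y : ℝ} (hy : 0 < y)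
    (hy0 : ∀ j, 1 - 1 / k j < y) (hy1 : y ≤ 1) (x : Conf n) :
    (CkV ρ k x x).re ≤ tailC k y M * y ^ (∑ j, x j) := by
  rw [CkV_diag]
  have h1 : ∀ l ∈ Finset.Iic x, (ext ρ (x - l) (x - l)).re * ccV k (x - l) l ^ 2 =
      ∑ c, if x - l = te c then (ρ c c).re * ccV k (te c) l ^ 2 else 0 := fun l _ =>
    ext_diag (fun m => ccV k m l ^ 2) (x - l)
  rw [Finset.sum_congr rfl h1, Finset.sum_comm]
  have hd : ∀ c, 0 ≤ (ρ c c).re := fun c => (Complex.le_def.1 (hρ.diag_nonneg (i := c))).1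
  have h2 : ∀ c, (∑ l ∈ Finset.Iic x, if x - l = te c then (ρ c c).re * ccV k (te c) l ^ 2 else 0) ≤
      (ρ c c).re * (tailC k y M * y ^ (∑ j, x j)) := by
    intro c
    by_cases hc : te c ≤ x
    · rw [Finset.sum_eq_single (x - te c)]
      · have e : x - (x - te c) = te c := by
          funext j
          have h5 : te c j ≤ x j := hc j
          show x j - (x j - te c j) = te c j
          omega
        rw [if_pos e]
        refine mul_le_mul_of_nonneg_left ?_ (hd c)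
        have h3 := ccV_sq_le' hk hy hy0 hy1 c (x - te c)
        have e2 : te c + (x - te c) = x := by
          funext j
          have h5 : te c j ≤ x j := hc j
          show te c j + (x j - te c j) = x j
          omega
        rw [e2] at h3
        exact h3
      · intro l hl hne
        rw [if_neg]
        intro h
        apply hne
        have hl' := Finset.mem_Iic.1 hl
        rw [← h]
        funext j
        have h5 : l j ≤ x j := hl' j
        show l j = x j - (x j - l j)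
        omega
      · intro h
        exact absurd (Finset.mem_Iic.2 (fun j => Nat.sub_le _ _)) h
    · rw [Finset.sum_eq_zero]
      · exact mul_nonneg (hd c) (mul_nonneg (tailC_nonneg hk hy hy0 hy1 M) (by positivity))
      · intro l _
        rw [if_neg]
        intro h
        apply hc
        rw [← h]
        exact fun j => Nat.sub_le _ _
  refine (Finset.sum_le_sum fun c _ => h2 c).trans ?_
  rw [← Finset.sum_mul, sum_rho ht, one_mul]

/-- (b) in the form asked for -/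
theorem CkV_tail' {M : ℕ} {ρ : Matrix (Fin n → Fin (M + 1)) (Fin n → Fin (M + 1)) ℂ}
    (hρ : ρ.PosSemidef) (ht : ρ.trace = 1) {k : Fin n → ℝ} (hk : ∀ j, 1 ≤ k j) :
    ∃ C y : ℝ, 0 < C ∧ 0 < y ∧ y < 1 ∧ ∀ x : Conf n, (CkV ρ k x x).re ≤ C * y ^ (∑ j, x j) := by
  obtain ⟨y, hy0, hy1, hy⟩ : ∃ y : ℝ, (∀ j, 1 - 1 / k j < y) ∧ y < 1 ∧ 0 < y := by
    have hlt : ∀ j, 1 - 1 / k j < 1 := fun j => by
      have h0 : 0 < k j := by have := hk j; linarith only [this]
      have : 0 < 1 / k j := by positivity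
      linarith only [this]
    rcases isEmpty_or_nonempty (Fin n) with h | h
    · exact ⟨1 / 2, fun j => (h.false j).elim, by norm_num, by norm_num⟩
    · obtain ⟨i, hi⟩ := Finite.exists_max fun j => 1 - 1 / k j
      obtain ⟨y, h1, h2⟩ := exists_between (max_lt (hlt i) (show (0 : ℝ) < 1 by norm_num))
      exact ⟨y, fun j => lt_of_le_of_lt (hi j) (lt_of_le_of_lt (le_max_left _ _) h1), h2,
        lt_of_le_of_lt (le_max_right _ _) h1⟩
  refine ⟨tailC k y M + 1, y, ?_, hy, hy1, fun x => ?_⟩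
  · have := tailC_nonneg hk hy hy0 hy1.le M
    linarith only [this]
  · refine (CkV_tail hρ ht hk hy hy0 hy1.le x).trans ?_
    refine mul_le_mul_of_nonneg_right ?_ (by positivity)
    linarith only []

end

end Vale.Agent.P369V8
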