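import Vale.Agent.P369.H817.Bounds
import Vale.Agent.P369.H973.Box
import Vale.Agent.P369.H809.Defs

set_option linter.all false

/-!
P369 (helper817), block T1: box compressions of `T = CkV ρ k`.
-/

namespace Vale.Agent.P369V8

open Matrix MeasureTheory Set Filter
open Vale.Agent.P369V
open Vale.Agent.P369 (Conf up down box mem_box tendsto_box)
open Vale.Agent.P369A
open Vale.Agent.P369W (ccV ampV conV CkV DkV en0j posDef_CkV reg_CkV)
open Vale.Agent.P369Z (boxm tj enj)
open scoped ComplexOrder Topology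

noncomputable section

variable {n : ℕ}

/-- a configuration of the box, as a configuration with at most `n N` photons -/
def bx (n N : ℕ) (k : Cf n N) : Ct n (n * N) := ⟨cv k, by
  refine (Finset.sum_le_sum fun j _ => cv_le k j).trans ?_
  simp only [Finset.sum_const, Finset.card_univ, Fintype.card_fin, smul_eq_mul, le_refl]⟩

theorem bx_inj (n N : ℕ) : Function.Injective (bx n N) := fun _ _ h =>
  cv_injective (congrArg Subtype.val h)

theorem boxm_eq (N : ℕ) (T : Ker n) :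
    boxm N T = (cut (n * N) T).submatrix (bx n N) (bx n N) := rfl

/-- (i) -/
theorem boxm_posDef {T : Ker n} (hT : ∀ X, (cut X T).PosDef) (N : ℕ) : (boxm N T).PosDef := by
  rw [boxm_eq]
  exact (hT _).submatrix (bx_inj n N)

theorem boxm_trace_re (N : ℕ) (T : Ker n) :
    (boxm N T).trace.re = ∑ x ∈ box n N, (T x x).re := by
  rw [Matrix.trace, Complex.re_sum, ← sum_cv (fun x => (T x x).re)]
  rfl

theorem boxm_trace {T : Ker n} (hT : ∀ X, (cut X T).PosDef) (N : ℕ) :
    (boxm N T).trace = (((boxm N T).trace.re : ℝ) : ℂ) := by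
  apply Complex.ext
  · rw [Complex.ofReal_re]
  · rw [Complex.ofReal_im, Matrix.trace, Complex.im_sum]
    refine Finset.sum_eq_zero fun k _ => ?_
    have h := (boxm_posDef hT N).isHermitian.apply k k
    rw [Matrix.diag_apply]
    exact Complex.conj_eq_iff_im.1 h

theorem hasSum_diag {T : Ker n} {E : ℝ} (h : Reg T E) :
    HasSum (fun x : Conf n => (T x x).re) 1 := by
  have h0 := diag_nonneg_of_cut fun X => (h.pos X).posSemidef
  have hs : Summable fun x : Conf n => (T x x).re :=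
    summable_of_Ct h0 (B := 1) fun X => h.tr_le X
  have h1 := tendsto_sum_Ct hs.hasSum
  have h2 := tendsto_nhds_unique h1 h.tr
  rw [← h2]
  exact hs.hasSum

/-- (ii) -/
theorem boxm_trace_le {T : Ker n} {E : ℝ} (h : Reg T E) (N : ℕ) : (boxm N T).trace.re ≤ 1 := by
  rw [boxm_trace_re]
  exact sum_le_hasSum _ (fun x _ => diag_nonneg_of_cut (fun X => (h.pos X).posSemidef) x)
    (hasSum_diag h)

theorem tendsto_boxm_trace {T : Ker n} {E : ℝ} (h : Reg T E) :
    Tendsto (fun N => (boxm N T).trace.re) atTop (𝓝 1) := by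
  simp only [boxm_trace_re]
  exact (hasSum_diag h).comp (tendsto_box n)

theorem boxm_trace_pos {T : Ker n} (hT : ∀ X, (cut X T).PosDef) (N : ℕ) :
    0 < (boxm N T).trace.re := by
  have h := boxm_posDef hT N
  rw [Matrix.trace, Complex.re_sum]
  refine Finset.sum_pos (fun k _ => ?_) ⟨fun _ => 0, Finset.mem_univ _⟩
  have := h.diag_pos (i := k)
  exact (Complex.lt_def.1 this).1

/-- entropy of the box compression -/
theorem ent_boxm_le {T : Ker n} {E : ℝ} (h : Reg T E) (N : ℕ) :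
    ent (boxm N T) ≤ Sl T + (1 - (boxm N T).trace.re) := by
  have h1 := ent_submatrix_le (A := cut (n * N) T) (h.pos _).posSemidef
    (by rw [← trX_eq]; exact h.tr_le _) (bx_inj n N)
  rw [← boxm_eq, ← trX_eq] at h1
  have h2 := h.ent_le (n * N)
  linarith only [h1, h2]

/-- entropy of the normalised box compression -/
theorem ent_boxm_norm {T : Ker n} {E : ℝ} (h : Reg T E) (N : ℕ) :
    ent ((((boxm N T).trace.re)⁻¹ : ℝ) • boxm N T) ≤
      ((boxm N T).trace.re)⁻¹ * (Sl T + (1 - (boxm N T).trace.re)) := by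
  have hp := boxm_trace_pos h.pos N
  have h1 := boxm_trace_le h N
  rw [g4_ent_smul (boxm_posDef h.pos N).posSemidef hp, div_mul_cancel₀ _ hp.ne']
  have h2 := mul_le_mul_of_nonneg_left (ent_boxm_le h N) (inv_nonneg.2 hp.le)
  have h3 : Real.log (boxm N T).trace.re ≤ 0 := Real.log_nonpos hp.le h1
  linarith only [h2, h3]

/-- (iii) -/
theorem ent_boxm_norm_lim {T : Ker n} {E : ℝ} (h : Reg T E) {ε : ℝ} (hε : 0 < ε) :
    ∀ᶠ N in atTop, ent ((((boxm N T).trace.re)⁻¹ : ℝ) • boxm N T) ≤ Sl T + ε := by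
  have ht := tendsto_boxm_trace h
  have h1 : Tendsto (fun N => ((boxm N T).trace.re)⁻¹ * (Sl T + (1 - (boxm N T).trace.re))) atTop
      (𝓝 (1⁻¹ * (Sl T + (1 - 1)))) :=
    (ht.inv₀ one_ne_zero).mul ((tendsto_const_nhds.sub ht).const_add _)
  have h2 : (1 : ℝ)⁻¹ * (Sl T + (1 - 1)) < Sl T + ε := by
    rw [inv_one, one_mul, sub_self, add_zero]
    linarith only [hε]
  filter_upwards [h1.eventually (eventually_lt_nhds h2)] with N hN
  exact (ent_boxm_norm h N).trans hN.le

/-- the normalised box compression, complex scalar -/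
theorem boxm_norm_eq {T : Ker n} (hT : ∀ X, (cut X T).PosDef) (N : ℕ) :
    ((boxm N T).trace)⁻¹ • boxm N T = (((boxm N T).trace.re)⁻¹ : ℝ) • boxm N T := by
  conv_lhs => rw [boxm_trace hT N]
  ext i j
  rw [Matrix.smul_apply, Matrix.smul_apply, smul_eq_mul, Complex.real_smul]
  push_cast
  rfl

theorem boxm_norm_posDef {T : Ker n} (hT : ∀ X, (cut X T).PosDef) (N : ℕ) :
    ((((boxm N T).trace.re)⁻¹ : ℝ) • boxm N T).PosDef :=
  (boxm_posDef hT N).smul (inv_pos.2 (boxm_trace_pos hT N))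

theorem boxm_norm_trace {T : Ker n} (hT : ∀ X, (cut X T).PosDef) (N : ℕ) :
    ((((boxm N T).trace.re)⁻¹ : ℝ) • boxm N T).trace = 1 := by
  have hp := boxm_trace_pos hT N
  rw [trace_smul, boxm_trace hT N, Complex.ofReal_re, Complex.real_smul, ← Complex.ofReal_mul,
    inv_mul_cancel₀ hp.ne', Complex.ofReal_one]

theorem enj_boxm (N : ℕ) (T : Ker n) (j : Fin n) :
    enj n N (boxm N T) j = ∑ x ∈ box n N, (x j : ℝ) * (T x x).re := by
  unfold P369Z.enj
  rw [e4_num, Matrix.trace, Complex.re_sum, ← sum_cv (fun x => (x j : ℝ) * (T x x).re)]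
  refine Finset.sum_congr rfl fun k _ => ?_
  rw [Matrix.diag_apply, Matrix.mul_diagonal, Complex.re_mul_ofReal, mul_comm]
  rfl

/-- (iv) -/
theorem enj_boxm_le {T : Ker n} {E : ℝ} (h : Reg T E) (N : ℕ) (j : Fin n) :
    enj n N (boxm N T) j ≤ E := by
  have hd := diag_nonneg_of_cut fun X => (h.pos X).posSemidef
  rw [enj_boxm]
  have h1 : ∑ x ∈ box n N, (x j : ℝ) * (T x x).re ≤
      ∑ x ∈ box n N, (∑ i, (x i : ℝ)) * (T x x).re :=
    Finset.sum_le_sum fun x _ => mul_le_mul_of_nonneg_right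
      (Finset.single_le_sum (f := fun i => (x i : ℝ)) (fun _ _ => Nat.cast_nonneg _)
        (Finset.mem_univ j)) (hd x)
  have h2 : box n N ⊆ ctF n (n * N) := by
    intro x hx
    rw [mem_ctF]
    refine (Finset.sum_le_sum fun j _ => mem_box.1 hx j).trans ?_
    simp only [Finset.sum_const, Finset.card_univ, Fintype.card_fin, smul_eq_mul, le_refl]
  have h3 := Finset.sum_le_sum_of_subset_of_nonneg (f := fun x : Conf n =>
    (∑ i, (x i : ℝ)) * (T x x).re) h2 fun x _ _ =>
      mul_nonneg (Finset.sum_nonneg fun _ _ => Nat.cast_nonneg _) (hd x)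
  have h4 : ∑ x ∈ ctF n (n * N), (∑ i, (x i : ℝ)) * (T x x).re = enX T (n * N) :=
    sum_ctF _ _
  rw [h4] at h3
  exact h1.trans (h3.trans (h.en_le _))

/-- boundary term of a kernel with exponential tail -/
theorem tj_boxm_le {T : Ker n} {C y : ℝ} (hC : 0 ≤ C) (hy0 : 0 < y) (hy1 : y ≤ 1)
    (hT : ∀ x : Conf n, (T x x).re ≤ C * y ^ (∑ j, x j)) (N : ℕ) (j : Fin n) :
    tj n N (boxm N T) j ≤ C * ((N : ℝ) + 1) ^ (n + 1) * y ^ N := by
  unfold P369Z.tj
  have h1 : ∀ k ∈ (Finset.univ : Finset (Cf n N)), (if (k j : ℕ) = N then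
      ((N : ℝ) + 1) * (boxm N T k k).re else 0) ≤ ((N : ℝ) + 1) * (C * y ^ N) := by
    intro k _
    have hb : 0 ≤ ((N : ℝ) + 1) * (C * y ^ N) := by positivity
    by_cases hk : (k j : ℕ) = N
    · rw [if_pos hk]
      refine mul_le_mul_of_nonneg_left ?_ (by positivity)
      refine (hT (cv k)).trans (mul_le_mul_of_nonneg_left ?_ hC)
      refine pow_le_pow_of_le_one hy0.le hy1 ?_
      have := Finset.single_le_sum (f := fun i => cv k i) (fun _ _ => Nat.zero_le _)
        (Finset.mem_univ j)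
      have h2 : cv k j = N := hk
      simp only [h2] at this
      exact this
    · rw [if_neg hk]
      exact hb
  refine (Finset.sum_le_sum h1).trans (le_of_eq ?_)
  rw [Finset.sum_const, Finset.card_univ, nsmul_eq_mul]
  have h2 : Fintype.card (Cf n N) = (N + 1) ^ n := by
    unfold Cf
    rw [Fintype.card_fun, Fintype.card_fin, Fintype.card_fin]
  rw [h2, pow_succ]
  push_cast
  ring

section family

variable {M : ℕ} {ρ : Matrix (Fin n → Fin (M + 1)) (Fin n → Fin (M + 1)) ℂ}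

/-- (v) -/
theorem tj_boxm_CkV (hρ : ρ.PosDef) (ht : ρ.trace = 1) {k : Fin n → ℝ} (hk : ∀ j, 1 < k j) :
    ∃ C y : ℝ, 0 < C ∧ 0 < y ∧ y < 1 ∧ ∀ (N : ℕ) (j : Fin n),
      tj n N (boxm N (CkV ρ k)) j ≤ C * ((N : ℝ) + 1) ^ (n + 1) * y ^ N := by
  obtain ⟨C, y, hC, hy0, hy1, h⟩ := CkV_tail' hρ.posSemidef ht (fun j => (hk j).le)
  exact ⟨C, y, hC, hy0, hy1, fun N j => tj_boxm_le hC.le hy0 hy1.le h N j⟩

/-- (vi) -/
theorem boxm_lower (hρ : ρ.PosDef) {k : Fin n → ℝ} (hk : ∀ j, 1 < k j) :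
    ∃ c q : ℝ, 0 < c ∧ 0 < q ∧ q ≤ 1 ∧ ∀ N : ℕ,
      (boxm N (CkV ρ k) - ((c * q ^ N : ℝ) : ℂ) • (1 : Matrix (Cf n N) (Cf n N) ℂ)).PosSemidef := by
  obtain ⟨c, q, hc, hq0, hq1, h⟩ := CkV_lower' hρ hk
  refine ⟨c, q ^ n, hc, by positivity, pow_le_one₀ hq0.le hq1, fun N => ?_⟩
  have h1 := (h (n * N)).submatrix (bx n N)
  convert h1 using 1
  ext k k'
  rw [Matrix.sub_apply, Matrix.submatrix_apply, Matrix.sub_apply, Matrix.smul_apply,
    Matrix.smul_apply, Matrix.one_apply, Matrix.one_apply, ← pow_mul]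
  have e : (k = k') ↔ (bx n N k = bx n N k') := ⟨fun h => by rw [h], fun h => bx_inj n N h⟩
  simp only [e]
  rfl

end family

end

end Vale.Agent.P369V8
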