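import Vale.Agent.P369.H400.VecDefs
import Vale.Agent.P369.H809.LossDefs

set_option linter.all false

/-!
P369 (helper817), block L2: the loss channel after (amplifier after loss) is (amplifier after
loss) with changed parameters.  One mode first.
-/

namespace Vale.Agent.P369V8

open Matrix Filter Topology
open Vale.Agent.P369 (Conf up down)
open Vale.Agent.P369A
open Vale.Agent.P369T (AA sqrt_choose_succ sqrt_choose_succ')
open Vale.Agent.P369F (lk lkV lossV lossK)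
open Vale.Agent.P369W (ccV ampV CkV)

noncomputable section

/-! ### the one-mode loss kernel -/

theorem lk_rec (x : ℝ) (a b k k' : ℕ) :
    Real.sqrt ((a : ℝ) + 1) * lk x (a + 1) b k k' =
      Real.sqrt x * (Real.sqrt k * lk x a b (k - 1) k') := by
  unfold P369F.lk
  rcases Nat.eq_zero_or_pos k with hk | hk
  · subst hk
    rw [if_neg (by omega)]
    simp
  · obtain ⟨l, rfl⟩ : ∃ l, k = l + 1 := ⟨k - 1, by omega⟩
    have e0 : l + 1 - 1 = l := by omega
    rw [e0]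
    by_cases h : l + b = k' + a ∧ a ≤ l
    · rw [if_pos h, if_pos (by omega)]
      have h1 := sqrt_choose_succ' (l + 1) a
      rw [e0] at h1
      have e1 : l + 1 - (a + 1) = l - a := by omega
      rw [e1, pow_succ]
      linear_combination (Real.sqrt ((k'.choose b : ℕ) : ℝ) *
        (Real.sqrt x ^ a * Real.sqrt x * Real.sqrt x ^ b) * (1 - x) ^ (l - a)) * h1
    · rw [if_neg h, if_neg (by omega)]
      simp

theorem lk_symm (x : ℝ) (a b k k' : ℕ) : lk x a b k k' = lk x b a k' k := by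
  unfold P369F.lk
  by_cases h : k + b = k' + a ∧ a ≤ k
  · rw [if_pos h, if_pos (by omega)]
    have e : k' - b = k - a := by omega
    rw [e]
    ring
  · rw [if_neg h, if_neg (by omega)]

theorem lk_zero (x : ℝ) (k k' : ℕ) : lk x 0 0 k k' = if k = k' then (1 - x) ^ k else 0 := by
  unfold P369F.lk
  by_cases h : k = k'
  · subst h
    rw [if_pos ⟨rfl, Nat.zero_le _⟩, if_pos rfl]
    simp
  · rw [if_neg h, if_neg (by omega)]

/-! ### amplifier after loss -/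

theorem AA_symm (κ : ℝ) (m m' i : ℕ) : AA κ m m' i = AA κ m' m i := by
  unfold P369T.AA
  ring

theorem AA_zero_of_lt {κ : ℝ} {m m' i : ℕ} (h : m' < i) : AA κ m m' i = 0 := by
  unfold P369T.AA
  rw [Nat.choose_eq_zero_of_lt h]
  simp

/-- amplifier of gain `κ` after loss of transmissivity `x` -/
def RL (κ x : ℝ) (m m' k k' : ℕ) : ℝ :=
  ∑ i ∈ Finset.range (m + 1), AA κ m m' i * lk x (m - i) (m' - i) k k'

theorem RL_eq_min (κ x : ℝ) (m m' k k' : ℕ) : RL κ x m m' k k' =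
    ∑ i ∈ Finset.range (min m m' + 1), AA κ m m' i * lk x (m - i) (m' - i) k k' := by
  unfold RL
  symm
  apply Finset.sum_subset
  · intro i hi
    rw [Finset.mem_range] at hi ⊢
    omega
  · intro i hi hi'
    rw [Finset.mem_range] at hi hi'
    rw [AA_zero_of_lt (by omega), zero_mul]

theorem RL_symm (κ x : ℝ) (m m' k k' : ℕ) : RL κ x m m' k k' = RL κ x m' m k' k := by
  rw [RL_eq_min, RL_eq_min, min_comm]
  refine Finset.sum_congr rfl fun i _ => ?_
  rw [AA_symm, lk_symm]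

theorem RL_rec (κ x : ℝ) (m m' k k' : ℕ) :
    Real.sqrt (m + 1) * RL κ x (m + 1) m' k k' =
      (Real.sqrt κ)⁻¹ * Real.sqrt x * (Real.sqrt k * RL κ x m m' (k - 1) k') +
      (κ - 1) / κ * (Real.sqrt m' * RL κ x m (m' - 1) k k') := by
  unfold RL
  rw [Finset.mul_sum]
  -- split every term
  have e1 : ∀ i ∈ Finset.range (m + 1 + 1), Real.sqrt (m + 1) *
      (AA κ (m + 1) m' i * lk x (m + 1 - i) (m' - i) k k') =
      (if i ≤ m then κ⁻¹ * (Real.sqrt (((m - i : ℕ) : ℝ) + 1) * Real.sqrt ((m.choose i : ℕ) : ℝ) *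
        Real.sqrt ((m'.choose i : ℕ) : ℝ) * ((κ - 1) / κ) ^ i *
        (Real.sqrt κ)⁻¹ ^ (m + 1 - i) * (Real.sqrt κ)⁻¹ ^ (m' - i)) * lk x (m + 1 - i) (m' - i) k k'
        else 0) +
      κ⁻¹ * (Real.sqrt (i : ℝ) * Real.sqrt ((m.choose (i - 1) : ℕ) : ℝ) *
        Real.sqrt ((m'.choose i : ℕ) : ℝ) * ((κ - 1) / κ) ^ i *
        (Real.sqrt κ)⁻¹ ^ (m + 1 - i) * (Real.sqrt κ)⁻¹ ^ (m' - i)) * lk x (m + 1 - i) (m' - i) k k' := by
    intro i hi
    rw [Finset.mem_range] at hi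
    unfold P369T.AA
    by_cases him : i ≤ m
    · rw [if_pos him]
      have := sqrt_choose_succ him
      linear_combination (κ⁻¹ * (Real.sqrt ((m'.choose i : ℕ) : ℝ) * ((κ - 1) / κ) ^ i *
        (Real.sqrt κ)⁻¹ ^ (m + 1 - i) * (Real.sqrt κ)⁻¹ ^ (m' - i)) *
        lk x (m + 1 - i) (m' - i) k k') * this
    · have hi' : i = m + 1 := by omega
      rw [if_neg him]
      subst hi'
      have e2 : m + 1 - 1 = m := by omega
      rw [e2, Nat.choose_self, Nat.choose_self]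
      push_cast
      ring
  rw [Finset.sum_congr rfl e1, Finset.sum_add_distrib]
  congr 1
  · rw [Finset.sum_range_succ, if_neg (by omega), add_zero, Finset.mul_sum, Finset.mul_sum]
    apply Finset.sum_congr rfl
    intro i hi
    rw [Finset.mem_range] at hi
    rw [if_pos (by omega)]
    have e2 : m + 1 - i = (m - i) + 1 := by omega
    rw [e2, pow_succ]
    have h := lk_rec x (m - i) (m' - i) k k'
    unfold P369T.AA
    linear_combination (κ⁻¹ * (Real.sqrt ((m.choose i : ℕ) : ℝ) *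
        Real.sqrt ((m'.choose i : ℕ) : ℝ) * ((κ - 1) / κ) ^ i *
        ((Real.sqrt κ)⁻¹ ^ (m - i) * (Real.sqrt κ)⁻¹) * (Real.sqrt κ)⁻¹ ^ (m' - i))) * h
  · rw [Finset.sum_range_succ']
    simp only [Nat.cast_zero, Real.sqrt_zero, zero_mul, mul_zero, add_zero]
    rw [Finset.mul_sum, Finset.mul_sum]
    apply Finset.sum_congr rfl
    intro j hj
    have e2 : m + 1 - (j + 1) = m - j := by omega
    have e3 : m' - (j + 1) = m' - 1 - j := by omega
    have e4 : j + 1 - 1 = j := by (clear * -; omega)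
    rw [e2, e3, e4, pow_succ]
    have h := sqrt_choose_succ' m' j
    unfold P369T.AA
    push_cast
    linear_combination (κ⁻¹ * (Real.sqrt ((m.choose j : ℕ) : ℝ) * (((κ - 1) / κ) ^ j * ((κ - 1) / κ)) *
        (Real.sqrt κ)⁻¹ ^ (m - j) * (Real.sqrt κ)⁻¹ ^ (m' - 1 - j)) *
        lk x (m - j) (m' - 1 - j) k k') * h

theorem RL_zero (κ x : ℝ) (k k' : ℕ) :
    RL κ x 0 0 k k' = if k = k' then κ⁻¹ * (1 - x) ^ k else 0 := by
  unfold RL P369T.AA
  simp only [zero_add, Finset.range_one, Finset.sum_singleton, Nat.choose_zero_right,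
    Nat.cast_one, Real.sqrt_one, pow_zero, mul_one, Nat.sub_self]
  rw [lk_zero]
  split_ifs
  · rfl
  · rw [mul_zero]

/-! ### the weights of the loss channel -/

/-- `⟨p| loss_θ (|p+c⟩⟨q+c|) |q⟩` -/
def ww (θ : ℝ) (p q c : ℕ) : ℝ :=
  Real.sqrt (((p + c).choose c : ℕ) : ℝ) * Real.sqrt (((q + c).choose c : ℕ) : ℝ) *
    (Real.sqrt θ ^ p * Real.sqrt θ ^ q) * (1 - θ) ^ c

theorem ww_eq_lk (θ : ℝ) (p q c : ℕ) : lk θ p q (p + c) (q + c) = ww θ p q c := by
  unfold P369F.lk ww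
  rw [if_pos (by omega), Nat.choose_symm_add, Nat.choose_symm_add, Nat.add_sub_cancel_left]

theorem ww_symm (θ : ℝ) (p q c : ℕ) : ww θ p q c = ww θ q p c := by
  unfold ww
  ring

theorem sqrt_choose_A (p c : ℕ) :
    Real.sqrt ((p : ℝ) + 1) * Real.sqrt (((p + 1 + c).choose c : ℕ) : ℝ) =
      Real.sqrt ((p : ℝ) + c + 1) * Real.sqrt (((p + c).choose c : ℕ) : ℝ) := by
  rw [← Real.sqrt_mul (by positivity), ← Real.sqrt_mul (by positivity)]
  congr 1
  have h := Nat.add_one_mul_choose_eq (p + c) p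
  have h2 : (p + c + 1).choose (p + 1) = (p + 1 + c).choose c := by
    rw [show p + c + 1 = p + 1 + c by ring, Nat.choose_symm_add]
  rw [h2, Nat.choose_symm_add] at h
  have h5 : (((p + c + 1) * (p + c).choose c : ℕ) : ℝ) =
      (((p + 1 + c).choose c * (p + 1) : ℕ) : ℝ) := by exact_mod_cast h
  push_cast at h5
  linarith only [h5]

/-- first identity of the weights -/
theorem ww_up (θ : ℝ) (p q c : ℕ) :
    Real.sqrt ((p : ℝ) + 1) * ww θ (p + 1) q c =
      Real.sqrt θ * ww θ p q c * Real.sqrt ((p : ℝ) + c + 1) := by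
  unfold ww
  have h := sqrt_choose_A p c
  rw [pow_succ]
  linear_combination (Real.sqrt (((q + c).choose c : ℕ) : ℝ) *
    (Real.sqrt θ ^ p * Real.sqrt θ * Real.sqrt θ ^ q) * (1 - θ) ^ c) * h

/-- `√C(p+c+1,c+1) √C(q+c+1,c+1) √(q+c+1) = √q √C(p+c+1,c+1) √C(q+c,c+1) + √(p+1) √C(p+1+c,c) √C(q+c,c)` -/
theorem sqrt_choose_B (p q c : ℕ) :
    Real.sqrt (((p + (c + 1)).choose (c + 1) : ℕ) : ℝ) *
      Real.sqrt (((q + (c + 1)).choose (c + 1) : ℕ) : ℝ) * Real.sqrt ((q : ℝ) + c + 1) =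
    Real.sqrt q * Real.sqrt (((p + (c + 1)).choose (c + 1) : ℕ) : ℝ) *
      Real.sqrt (((q - 1 + (c + 1)).choose (c + 1) : ℕ) : ℝ) +
    Real.sqrt ((p : ℝ) + 1) * Real.sqrt (((p + 1 + c).choose c : ℕ) : ℝ) *
      Real.sqrt (((q + c).choose c : ℕ) : ℝ) := by
  -- all the roots in terms of `√C(p+c+1,c+1)` and `√C(q+c,c)`
  have hc : (0 : ℝ) < (c : ℝ) + 1 := by positivity
  have hcs : 0 < Real.sqrt ((c : ℝ) + 1) := Real.sqrt_pos.2 hc
  have hcc : Real.sqrt ((c : ℝ) + 1) * Real.sqrt ((c : ℝ) + 1) = (c : ℝ) + 1 :=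
    Real.mul_self_sqrt hc.le
  -- (1) `√(p+1) √C(p+1+c,c) = √(c+1) √C(p+c+1,c+1)`
  have h1 : Real.sqrt ((p : ℝ) + 1) * Real.sqrt (((p + 1 + c).choose c : ℕ) : ℝ) =
      Real.sqrt ((c : ℝ) + 1) * Real.sqrt (((p + (c + 1)).choose (c + 1) : ℕ) : ℝ) := by
    rw [← Real.sqrt_mul (by positivity), ← Real.sqrt_mul (by positivity)]
    congr 1
    have h := Nat.choose_succ_right_eq (p + 1 + c) c
    have e : p + 1 + c - c = p + 1 := by omega
    rw [e] at h
    have e2 : p + (c + 1) = p + 1 + c := by ring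
    rw [e2]
    have h5 : (((p + 1 + c).choose (c + 1) * (c + 1) : ℕ) : ℝ) =
      (((p + 1 + c).choose c * (p + 1) : ℕ) : ℝ) := by exact_mod_cast h
    push_cast at h5
    linarith only [h5]
  -- (2) `√(c+1) √C(q+c+1,c+1) = √(q+c+1) √C(q+c,c)`
  have h2 : Real.sqrt ((c : ℝ) + 1) * Real.sqrt (((q + (c + 1)).choose (c + 1) : ℕ) : ℝ) =
      Real.sqrt ((q : ℝ) + c + 1) * Real.sqrt (((q + c).choose c : ℕ) : ℝ) := by
    rw [← Real.sqrt_mul (by positivity), ← Real.sqrt_mul (by positivity)]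
    congr 1
    have h := Nat.add_one_mul_choose_eq (q + c) c
    have h5 : (((q + c + 1) * (q + c).choose c : ℕ) : ℝ) =
      (((q + c + 1).choose (c + 1) * (c + 1) : ℕ) : ℝ) := by exact_mod_cast h
    push_cast at h5
    have e2 : q + (c + 1) = q + c + 1 := by ring
    rw [e2]
    linarith only [h5]
  -- (3) `√(c+1) √C(q-1+c+1,c+1) = √q √C(q+c,c)`
  have h3 : Real.sqrt q * (Real.sqrt ((c : ℝ) + 1) *
      Real.sqrt (((q - 1 + (c + 1)).choose (c + 1) : ℕ) : ℝ)) =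
      (q : ℝ) * Real.sqrt (((q + c).choose c : ℕ) : ℝ) := by
    rcases Nat.eq_zero_or_pos q with hq | hq
    · subst hq
      simp
    · obtain ⟨r, rfl⟩ : ∃ r, q = r + 1 := ⟨q - 1, by omega⟩
      have e : r + 1 - 1 + (c + 1) = r + 1 + c := by omega
      rw [e]
      have h := Nat.choose_succ_right_eq (r + 1 + c) c
      have e3 : r + 1 + c - c = r + 1 := by omega
      rw [e3] at h
      have h5 : (((r + 1 + c).choose (c + 1) * (c + 1) : ℕ) : ℝ) =
        (((r + 1 + c).choose c * (r + 1) : ℕ) : ℝ) := by exact_mod_cast h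
      push_cast at h5
      have h6 : Real.sqrt ((c : ℝ) + 1) * Real.sqrt (((r + 1 + c).choose (c + 1) : ℕ) : ℝ) =
          Real.sqrt ((r + 1 : ℕ) : ℝ) * Real.sqrt (((r + 1 + c).choose c : ℕ) : ℝ) := by
        rw [← Real.sqrt_mul (by positivity), ← Real.sqrt_mul (by positivity)]
        congr 1
        push_cast
        linarith only [h5]
      rw [h6, ← mul_assoc, Real.mul_self_sqrt (by positivity)]
  have hqc : Real.sqrt ((q : ℝ) + c + 1) * Real.sqrt ((q : ℝ) + c + 1) = (q : ℝ) + c + 1 :=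
    Real.mul_self_sqrt (by positivity)
  rw [h1]
  apply mul_left_cancel₀ hcs.ne'
  set P := Real.sqrt (((p + (c + 1)).choose (c + 1) : ℕ) : ℝ)
  set Q := Real.sqrt (((q + (c + 1)).choose (c + 1) : ℕ) : ℝ)
  set Q1 := Real.sqrt (((q - 1 + (c + 1)).choose (c + 1) : ℕ) : ℝ)
  set Q0 := Real.sqrt (((q + c).choose c : ℕ) : ℝ)
  set S := Real.sqrt ((q : ℝ) + c + 1)
  set C := Real.sqrt ((c : ℝ) + 1)
  linear_combination (P * S) * h2 - P * h3 - P * Q0 * hcc + P * Q0 * hqc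

/-- second identity of the weights -/
theorem ww_down {θ : ℝ} (hθ : 0 ≤ θ) (p q c : ℕ) :
    Real.sqrt θ * ww θ p q (c + 1) * Real.sqrt ((q : ℝ) + c + 1) =
      θ * (Real.sqrt q * ww θ p (q - 1) (c + 1)) +
      (1 - θ) * (Real.sqrt ((p : ℝ) + 1) * ww θ (p + 1) q c) := by
  unfold ww
  have h := sqrt_choose_B p q c
  have hθ2 : Real.sqrt θ * Real.sqrt θ = θ := Real.mul_self_sqrt hθ
  have hq : Real.sqrt q * (θ * Real.sqrt θ ^ (q - 1)) = Real.sqrt q * (Real.sqrt θ * Real.sqrt θ ^ q) := by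
    rcases Nat.eq_zero_or_pos q with hq | hq
    · subst hq; simp
    · obtain ⟨r, rfl⟩ : ∃ r, q = r + 1 := ⟨q - 1, by omega⟩
      have e : r + 1 - 1 = r := by omega
      rw [e, pow_succ]
      linear_combination (-(Real.sqrt ((r + 1 : ℕ) : ℝ)) * Real.sqrt θ ^ r) * hθ2
  rw [pow_succ (Real.sqrt θ) p, pow_succ (1 - θ) c]
  set P := Real.sqrt (((p + (c + 1)).choose (c + 1) : ℕ) : ℝ)
  set Q := Real.sqrt (((q + (c + 1)).choose (c + 1) : ℕ) : ℝ)
  set Q1 := Real.sqrt (((q - 1 + (c + 1)).choose (c + 1) : ℕ) : ℝ)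
  set Q0 := Real.sqrt (((q + c).choose c : ℕ) : ℝ)
  set P0 := Real.sqrt (((p + 1 + c).choose c : ℕ) : ℝ)
  set S := Real.sqrt ((q : ℝ) + c + 1)
  linear_combination (Real.sqrt θ * (Real.sqrt θ ^ p * Real.sqrt θ ^ q) * ((1 - θ) ^ c * (1 - θ))) * h -
    (P * Q1 * Real.sqrt θ ^ p * ((1 - θ) ^ c * (1 - θ))) * hq

theorem ww_down_zero {θ : ℝ} (hθ : 0 ≤ θ) (p q : ℕ) :
    Real.sqrt θ * ww θ p q 0 * Real.sqrt (q : ℝ) = θ * (Real.sqrt q * ww θ p (q - 1) 0) := by
  unfold ww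
  have hθ2 : Real.sqrt θ * Real.sqrt θ = θ := Real.mul_self_sqrt hθ
  simp only [Nat.choose_zero_right, Nat.cast_one, Real.sqrt_one, one_mul, pow_zero, mul_one]
  rcases Nat.eq_zero_or_pos q with hq | hq
  · subst hq; simp
  · obtain ⟨r, rfl⟩ : ∃ r, q = r + 1 := ⟨q - 1, by omega⟩
    have e : r + 1 - 1 = r := by omega
    rw [e, pow_succ]
    linear_combination (Real.sqrt ((r + 1 : ℕ) : ℝ) * Real.sqrt θ ^ p * Real.sqrt θ ^ r) * hθ2

/-! ### the one-mode theorem -/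

/-- a sequence with `F 0 = G 0`, `F (c+1) = G (c+1) + b F c` -/
theorem hasSum_of_rec {F G : ℕ → ℝ} {b g : ℝ} (hb0 : 0 ≤ b) (hb1 : b < 1) (hG : HasSum G g)
    (h0 : F 0 = G 0) (h1 : ∀ c, F (c + 1) = G (c + 1) + b * F c) : HasSum F (g / (1 - b)) := by
  have hF : ∀ c, F c = ∑ k ∈ Finset.range (c + 1), G k * b ^ (c - k) := by
    intro c
    induction c with
    | zero => simp [h0]
    | succ c ih =>
      rw [h1, ih, Finset.sum_range_succ (fun k => G k * b ^ (c + 1 - k)) (c + 1), Finset.mul_sum]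
      rw [show c + 1 - (c + 1) = 0 by omega, pow_zero, mul_one, add_comm]
      congr 1
      refine Finset.sum_congr rfl fun k hk => ?_
      have : c + 1 - k = c - k + 1 := by
        have := Finset.mem_range.1 hk
        omega
      rw [this, pow_succ]
      ring
  have hbn : ‖b‖ < 1 := by rwa [Real.norm_of_nonneg hb0]
  have h := hasSum_sum_range_mul_of_summable_norm (f := G) (g := fun i => b ^ i)
    hG.summable.norm (summable_geometric_of_norm_lt_one hbn).norm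
  rw [hG.tsum_eq, tsum_geometric_of_norm_lt_one hbn, ← div_eq_mul_inv] at h
  exact h.congr_fun hF

/-- the new gain -/
def kp (θ κ : ℝ) : ℝ := 1 + θ * (κ - 1)

/-- the new transmissivity -/
def xp (θ κ x : ℝ) : ℝ := x * θ * κ / kp θ κ

theorem kp_pos {θ κ : ℝ} (hθ : 0 ≤ θ) (hκ : 1 ≤ κ) : 0 < kp θ κ := by
  unfold kp
  have := mul_nonneg hθ (sub_nonneg.2 hκ)
  linarith

theorem RL_zero_of_ne {κ x : ℝ} {c k k' : ℕ} (h : k ≠ k') : RL κ x c c k k' = 0 := by
  unfold RL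
  refine Finset.sum_eq_zero fun i hi => ?_
  unfold P369F.lk
  rw [if_neg (by omega), mul_zero]

theorem RL_diag {κ x : ℝ} (hκ : 1 ≤ κ) (hx : 0 ≤ x) (c k : ℕ) :
    RL κ x c c k k = ∑ d ∈ Finset.range (k + 1), if d ≤ c then
      κ⁻¹ * ((k.choose d : ℕ) : ℝ) * (x / κ) ^ d * (1 - x) ^ (k - d) *
        (((c.choose d : ℕ) : ℝ) * ((κ - 1) / κ) ^ (c - d)) else 0 := by
  have hκ0 : 0 < κ := by linarith only [hκ]
  have hs : (Real.sqrt κ)⁻¹ * (Real.sqrt κ)⁻¹ = κ⁻¹ := by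
    rw [← mul_inv, Real.mul_self_sqrt hκ0.le]
  have hx2 : Real.sqrt x * Real.sqrt x = x := Real.mul_self_sqrt hx
  have e : ∀ d, d ≤ c → AA κ c c (c - d) * lk x (c - (c - d)) (c - (c - d)) k k =
      if d ≤ k then κ⁻¹ * ((k.choose d : ℕ) : ℝ) * (x / κ) ^ d * (1 - x) ^ (k - d) *
        (((c.choose d : ℕ) : ℝ) * ((κ - 1) / κ) ^ (c - d)) else 0 := by
    intro d hd
    have e1 : c - (c - d) = d := by omega
    rw [e1]
    unfold P369T.AA P369F.lk
    rw [e1]
    by_cases h : d ≤ k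
    · rw [if_pos ⟨by omega, h⟩, if_pos h, Nat.choose_symm hd]
      have h1 : Real.sqrt ((c.choose d : ℕ) : ℝ) * Real.sqrt ((c.choose d : ℕ) : ℝ) =
        ((c.choose d : ℕ) : ℝ) := Real.mul_self_sqrt (Nat.cast_nonneg _)
      have h2 : Real.sqrt ((k.choose d : ℕ) : ℝ) * Real.sqrt ((k.choose d : ℕ) : ℝ) =
        ((k.choose d : ℕ) : ℝ) := Real.mul_self_sqrt (Nat.cast_nonneg _)
      have h3 : (Real.sqrt κ)⁻¹ ^ d * (Real.sqrt κ)⁻¹ ^ d = κ⁻¹ ^ d := by
        rw [← mul_pow, hs]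
      have h4 : Real.sqrt x ^ d * Real.sqrt x ^ d = x ^ d := by
        rw [← mul_pow, hx2]
      have h5 : (x / κ) ^ d = x ^ d * κ⁻¹ ^ d := by
        rw [div_eq_mul_inv, mul_pow]
      calc _ = κ⁻¹ * (Real.sqrt ((c.choose d : ℕ) : ℝ) * Real.sqrt ((c.choose d : ℕ) : ℝ)) *
            ((κ - 1) / κ) ^ (c - d) * ((Real.sqrt κ)⁻¹ ^ d * (Real.sqrt κ)⁻¹ ^ d) *
            (Real.sqrt ((k.choose d : ℕ) : ℝ) * Real.sqrt ((k.choose d : ℕ) : ℝ)) *
            (Real.sqrt x ^ d * Real.sqrt x ^ d) * (1 - x) ^ (k - d) := by ring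
        _ = _ := by
          rw [h1, h2, h3, h4, h5]
          ring
    · rw [if_neg h, if_neg (by omega), mul_zero]
  unfold RL
  rw [← Finset.sum_range_reflect]
  have e2 : ∀ d ∈ Finset.range (c + 1), AA κ c c (c + 1 - 1 - d) *
      lk x (c - (c + 1 - 1 - d)) (c - (c + 1 - 1 - d)) k k =
      if d ≤ k then κ⁻¹ * ((k.choose d : ℕ) : ℝ) * (x / κ) ^ d * (1 - x) ^ (k - d) *
        (((c.choose d : ℕ) : ℝ) * ((κ - 1) / κ) ^ (c - d)) else 0 := by
    intro d hd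
    have hd' : d ≤ c := by have := Finset.mem_range.1 hd; omega
    rw [show c + 1 - 1 - d = c - d by omega]
    exact e d hd'
  rw [Finset.sum_congr rfl e2, ← Finset.sum_filter, ← Finset.sum_filter]
  refine Finset.sum_congr ?_ fun _ _ => rfl
  ext d
  simp only [Finset.mem_filter, Finset.mem_range]
  omega

theorem one_sub_b {θ κ : ℝ} (hκ : 1 ≤ κ) : 1 - (κ - 1) / κ * (1 - θ) = kp θ κ / κ := by
  have hκ0 : 0 < κ := by linarith only [hκ]
  unfold kp
  field_simp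
  ring

theorem b_bounds {θ κ : ℝ} (hθ0 : 0 ≤ θ) (hθ1 : θ ≤ 1) (hκ : 1 ≤ κ) :
    0 ≤ (κ - 1) / κ * (1 - θ) ∧ (κ - 1) / κ * (1 - θ) < 1 := by
  have hκ0 : 0 < κ := by linarith only [hκ]
  constructor
  · exact mul_nonneg (div_nonneg (sub_nonneg.2 hκ) hκ0.le) (sub_nonneg.2 hθ1)
  · have h := one_sub_b (θ := θ) hκ
    have h2 := div_pos (kp_pos hθ0 hκ) hκ0
    linarith only [h, h2]

/-- the base case -/
theorem hasSum_RL_zero {θ κ x : ℝ} (hθ0 : 0 ≤ θ) (hθ1 : θ ≤ 1) (hκ : 1 ≤ κ) (hx : 0 ≤ x)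
    (k k' : ℕ) : HasSum (fun c => ww θ 0 0 c * RL κ x (0 + c) (0 + c) k k')
      (RL (kp θ κ) (xp θ κ x) 0 0 k k') := by
  rw [RL_zero]
  by_cases hkk : k = k'
  swap
  · rw [if_neg hkk]
    refine hasSum_zero.congr_fun fun c => ?_
    rw [RL_zero_of_ne hkk, mul_zero]
  subst hkk
  rw [if_pos rfl]
  have hκ0 : 0 < κ := by linarith only [hκ]
  obtain ⟨hb0, hb1⟩ := b_bounds hθ0 hθ1 hκ
  have hkp := kp_pos hθ0 hκ
  have hob := one_sub_b (θ := θ) hκ
  set b := (κ - 1) / κ * (1 - θ) with hb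
  have hbn : ‖b‖ < 1 := by rwa [Real.norm_of_nonneg hb0]
  -- one value of `d`
  have hd : ∀ d ∈ Finset.range (k + 1), HasSum (fun c => if d ≤ c then
      κ⁻¹ * ((k.choose d : ℕ) : ℝ) * (x * (1 - θ) / κ) ^ d * (1 - x) ^ (k - d) *
        (((c.choose d : ℕ) : ℝ) * b ^ (c - d)) else 0)
      ((kp θ κ)⁻¹ * (((x * (1 - θ) / kp θ κ) ^ d * (1 - x) ^ (k - d)) * ((k.choose d : ℕ) : ℝ))) := by
    intro d _
    have h1 := (hasSum_choose_mul_geometric_of_norm_lt_one d hbn).mul_left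
      (κ⁻¹ * ((k.choose d : ℕ) : ℝ) * (x * (1 - θ) / κ) ^ d * (1 - x) ^ (k - d))
    have e1 : κ⁻¹ * ((k.choose d : ℕ) : ℝ) * (x * (1 - θ) / κ) ^ d * (1 - x) ^ (k - d) *
        (1 / (1 - b) ^ (d + 1)) =
        (kp θ κ)⁻¹ * (((x * (1 - θ) / kp θ κ) ^ d * (1 - x) ^ (k - d)) * ((k.choose d : ℕ) : ℝ)) := by
      rw [hob, pow_succ]
      rw [div_pow, div_pow, div_pow]
      field_simp
    rw [e1] at h1
    have hinj : Function.Injective fun i : ℕ => i + d := add_left_injective d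
    rw [← hinj.hasSum_iff]
    · refine h1.congr_fun fun i => ?_
      simp only [Function.comp]
      rw [if_pos (by omega), Nat.add_sub_cancel]
    · intro c hc
      rw [if_neg]
      intro h
      exact hc ⟨c - d, by simp only; omega⟩
  have h := hasSum_sum hd
  have e : ∑ d ∈ Finset.range (k + 1), ((kp θ κ)⁻¹ *
      (((x * (1 - θ) / kp θ κ) ^ d * (1 - x) ^ (k - d)) * ((k.choose d : ℕ) : ℝ))) =
      (kp θ κ)⁻¹ * (1 - xp θ κ x) ^ k := by
    rw [← Finset.mul_sum, ← add_pow]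
    congr 2
    unfold xp
    have : kp θ κ = 1 + θ * (κ - 1) := rfl
    field_simp
    rw [this]
    ring
  rw [e] at h
  refine h.congr_fun fun c => ?_
  rw [zero_add, RL_diag hκ hx, Finset.mul_sum]
  refine Finset.sum_congr rfl fun d _ => ?_
  by_cases hdc : d ≤ c
  · rw [if_pos hdc, if_pos hdc]
    unfold ww
    simp only [zero_add, Nat.choose_self, Nat.cast_one, Real.sqrt_one, pow_zero, one_mul]
    have e2 : (1 - θ) ^ c = (1 - θ) ^ d * (1 - θ) ^ (c - d) := by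
      rw [← pow_add]
      congr 1
      omega
    have e3 : (x * (1 - θ) / κ) ^ d = (x / κ) ^ d * (1 - θ) ^ d := by
      rw [← mul_pow]
      congr 1
      ring
    have e4 : ((κ - 1) / κ * (1 - θ)) ^ (c - d) = ((κ - 1) / κ) ^ (c - d) * (1 - θ) ^ (c - d) :=
      mul_pow _ _ _
    rw [e2, hb, e3, e4]
    ring
  · rw [if_neg hdc, if_neg hdc, mul_zero]

/-- one step of the induction -/
theorem hasSum_RL_step {θ κ x : ℝ} (hθ0 : 0 ≤ θ) (hθ1 : θ ≤ 1) (hκ : 1 ≤ κ) (hx : 0 ≤ x)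
    {p q k k' : ℕ}
    (hA : HasSum (fun c => ww θ p q c * RL κ x (p + c) (q + c) (k - 1) k')
      (RL (kp θ κ) (xp θ κ x) p q (k - 1) k'))
    (hB : HasSum (fun c => ww θ p (q - 1) c * RL κ x (p + c) (q - 1 + c) k k')
      (RL (kp θ κ) (xp θ κ x) p (q - 1) k k')) :
    HasSum (fun c => ww θ (p + 1) q c * RL κ x (p + 1 + c) (q + c) k k')
      (RL (kp θ κ) (xp θ κ x) (p + 1) q k k') := by
  have hκ0 : 0 < κ := by linarith only [hκ]
  obtain ⟨hb0, hb1⟩ := b_bounds hθ0 hθ1 hκ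
  have hkp := kp_pos hθ0 hκ
  have hob := one_sub_b (θ := θ) hκ
  have hp : 0 < Real.sqrt ((p : ℝ) + 1) := Real.sqrt_pos.2 (by positivity)
  -- the source term
  have hG := (hA.mul_left (Real.sqrt θ * ((Real.sqrt κ)⁻¹ * Real.sqrt x) * Real.sqrt k)).add
    (hB.mul_left ((κ - 1) / κ * θ * Real.sqrt q))
  have h := hasSum_of_rec (F := fun c => Real.sqrt ((p : ℝ) + 1) *
    (ww θ (p + 1) q c * RL κ x (p + 1 + c) (q + c) k k')) hb0 hb1 hG ?_ ?_
  · have h2 := h.mul_left (Real.sqrt ((p : ℝ) + 1))⁻¹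
    have e1 : ∀ c, (Real.sqrt ((p : ℝ) + 1))⁻¹ * (Real.sqrt ((p : ℝ) + 1) *
        (ww θ (p + 1) q c * RL κ x (p + 1 + c) (q + c) k k')) =
        ww θ (p + 1) q c * RL κ x (p + 1 + c) (q + c) k k' := fun c => by
      rw [← mul_assoc, inv_mul_cancel₀ hp.ne', one_mul]
    simp only [e1] at h2
    have hs : (Real.sqrt (kp θ κ))⁻¹ * Real.sqrt (xp θ κ x) =
        Real.sqrt θ * ((Real.sqrt κ)⁻¹ * Real.sqrt x) * (κ / kp θ κ) := by
      unfold xp
      rw [Real.sqrt_div (by positivity), Real.sqrt_mul (by positivity), Real.sqrt_mul hx]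
      have h3 : Real.sqrt (kp θ κ) * Real.sqrt (kp θ κ) = kp θ κ := Real.mul_self_sqrt hkp.le
      have h4 : Real.sqrt (kp θ κ) ≠ 0 := (Real.sqrt_pos.mpr hkp).ne'
      have h5 : Real.sqrt κ * Real.sqrt κ = κ := Real.mul_self_sqrt hκ0.le
      have h6 : Real.sqrt κ ≠ 0 := (Real.sqrt_pos.mpr hκ0).ne'
      have f1 : (Real.sqrt (kp θ κ))⁻¹ * (Real.sqrt x * Real.sqrt θ * Real.sqrt κ /
          Real.sqrt (kp θ κ)) = Real.sqrt x * Real.sqrt θ * Real.sqrt κ /
          (Real.sqrt (kp θ κ) * Real.sqrt (kp θ κ)) := by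
        field_simp
      have f2 : Real.sqrt θ * ((Real.sqrt κ)⁻¹ * Real.sqrt x) * (κ / kp θ κ) =
          Real.sqrt θ * ((Real.sqrt κ)⁻¹ * Real.sqrt x) *
            ((Real.sqrt κ * Real.sqrt κ) / kp θ κ) := by rw [h5]
      rw [f1, h3, f2]
      field_simp
    have hk1 : (kp θ κ - 1) / kp θ κ = (κ - 1) / κ * θ * (κ / kp θ κ) := by
      have : kp θ κ - 1 = θ * (κ - 1) := by unfold kp; ring
      rw [this]
      field_simp
    have key : RL (kp θ κ) (xp θ κ x) (p + 1) q k k' = (Real.sqrt ((p : ℝ) + 1))⁻¹ *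
        ((Real.sqrt θ * ((Real.sqrt κ)⁻¹ * Real.sqrt x) * Real.sqrt k *
          RL (kp θ κ) (xp θ κ x) p q (k - 1) k' +
          (κ - 1) / κ * θ * Real.sqrt q * RL (kp θ κ) (xp θ κ x) p (q - 1) k k') /
        (1 - (κ - 1) / κ * (1 - θ))) := by
      apply mul_left_cancel₀ hp.ne'
      rw [← mul_assoc (Real.sqrt ((p : ℝ) + 1)), mul_inv_cancel₀ hp.ne', one_mul, RL_rec, hob,
        hs, hk1]
      field_simp
    rw [key]
    exact h2
  · -- `c = 0`
    have h1 := ww_up θ p q 0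
    have h2 := ww_down_zero hθ0 p q
    have h3 := RL_rec κ x p q k k'
    simp only [add_zero, Nat.cast_zero] at h1 h2 h3 ⊢
    calc Real.sqrt ((p : ℝ) + 1) * (ww θ (p + 1) q 0 * RL κ x (p + 1) q k k')
        = (Real.sqrt ((p : ℝ) + 1) * ww θ (p + 1) q 0) * RL κ x (p + 1) q k k' := by ring
      _ = Real.sqrt θ * ww θ p q 0 * (Real.sqrt ((p : ℝ) + 1) * RL κ x (p + 1) q k k') := by
        rw [h1]; ring
      _ = _ := by
        rw [h3]
        linear_combination ((κ - 1) / κ * RL κ x p (q - 1) k k') * h2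
  · -- `c + 1`
    intro c
    have h1 := ww_up θ p q (c + 1)
    have h2 := ww_down hθ0 p q c
    have h3 := RL_rec κ x (p + (c + 1)) (q + (c + 1)) k k'
    have e1 : p + 1 + (c + 1) = p + (c + 1) + 1 := by ring
    have e2 : q + (c + 1) - 1 = q + c := by omega
    have e3 : p + (c + 1) = p + 1 + c := by ring
    rw [e2] at h3
    have h4 : Real.sqrt q * (ww θ p (q - 1) (c + 1) * RL κ x (p + (c + 1)) (q - 1 + (c + 1)) k k') =
        Real.sqrt q * (ww θ p (q - 1) (c + 1) * RL κ x (p + (c + 1)) (q + c) k k') := by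
      rcases Nat.eq_zero_or_pos q with hq | hq
      · subst hq; simp
      · have : q - 1 + (c + 1) = q + c := by omega
        rw [this]
    rw [e1]
    have c1 : ((p : ℝ) + ((c + 1 : ℕ) : ℝ) + 1) = (((p + (c + 1) : ℕ) : ℝ) + 1) := by
      push_cast; ring
    have c2 : (((q + (c + 1) : ℕ) : ℝ)) = (q : ℝ) + c + 1 := by push_cast; ring
    rw [c1] at h1
    rw [c2] at h3
    calc Real.sqrt ((p : ℝ) + 1) * (ww θ (p + 1) q (c + 1) *
          RL κ x (p + (c + 1) + 1) (q + (c + 1)) k k')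
        = (Real.sqrt ((p : ℝ) + 1) * ww θ (p + 1) q (c + 1)) *
          RL κ x (p + (c + 1) + 1) (q + (c + 1)) k k' := by ring
      _ = Real.sqrt θ * ww θ p q (c + 1) * (Real.sqrt (((p + (c + 1) : ℕ) : ℝ) + 1) *
          RL κ x (p + (c + 1) + 1) (q + (c + 1)) k k') := by
        rw [h1]; ring
      _ = _ := by
        rw [h3, ← e3]
        linear_combination ((κ - 1) / κ * RL κ x (p + (c + 1)) (q + c) k k') * h2 -
          ((κ - 1) / κ * θ) * h4

/-- **loss after (amplifier after loss), one mode** -/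
theorem hasSum_RL {θ κ x : ℝ} (hθ0 : 0 ≤ θ) (hθ1 : θ ≤ 1) (hκ : 1 ≤ κ) (hx : 0 ≤ x)
    (p q k k' : ℕ) :
    HasSum (fun c => ww θ p q c * RL κ x (p + c) (q + c) k k')
      (RL (kp θ κ) (xp θ κ x) p q k k') := by
  -- `q = 0`
  have h1 : ∀ p k k', HasSum (fun c => ww θ p 0 c * RL κ x (p + c) (0 + c) k k')
      (RL (kp θ κ) (xp θ κ x) p 0 k k') := by
    intro p
    induction p with
    | zero => exact fun k k' => hasSum_RL_zero hθ0 hθ1 hκ hx k k'
    | succ p ih => exact fun k k' => hasSum_RL_step hθ0 hθ1 hκ hx (ih (k - 1) k') (ih k k')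
  -- `p = 0`
  have h2 : ∀ q k k', HasSum (fun c => ww θ 0 q c * RL κ x (0 + c) (q + c) k k')
      (RL (kp θ κ) (xp θ κ x) 0 q k k') := by
    intro q k k'
    have h := h1 q k' k
    rw [RL_symm] at h
    refine h.congr_fun fun c => ?_
    rw [ww_symm, RL_symm]
  induction p generalizing q k k' with
  | zero => exact h2 q k k'
  | succ p ih => exact hasSum_RL_step hθ0 hθ1 hκ hx (ih q (k - 1) k') (ih (q - 1) k k')

/-! ### `n` modes -/

section modes

variable {n : ℕ} {M : ℕ} {ρ : Matrix (Fin n → Fin (M + 1)) (Fin n → Fin (M + 1)) ℂ}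

theorem AA_eq_c1 {κ : ℝ} (hκ : 1 ≤ κ) {p q i : ℕ} (hp : i ≤ p) (hq : i ≤ q) :
    AA κ p q i = c1 κ (p - i) i * c1 κ (q - i) i := by
  have hκ0 : 0 < κ := by linarith only [hκ]
  have hs : (Real.sqrt κ)⁻¹ * (Real.sqrt κ)⁻¹ = κ⁻¹ := by
    rw [← mul_inv, Real.mul_self_sqrt hκ0.le]
  have h1 : 0 ≤ 1 - 1 / κ := by
    rw [sub_nonneg, div_le_one hκ0]
    exact hκ
  have h2 : Real.sqrt (1 - 1 / κ) ^ i * Real.sqrt (1 - 1 / κ) ^ i = ((κ - 1) / κ) ^ i := by
    rw [← mul_pow, Real.mul_self_sqrt h1]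
    congr 1
    field_simp
  unfold P369T.AA P369A.c1
  rw [Nat.sub_add_cancel hp, Nat.sub_add_cancel hq, pow_succ (Real.sqrt κ)⁻¹ (p - i),
    pow_succ (Real.sqrt κ)⁻¹ (q - i), ← h2, ← hs]
  ring

/-- kernel of (amplifier after loss), `n` modes -/
def RLV (k x : Fin n → ℝ) (a b m m' : Conf n) : ℝ := ∏ j, RL (k j) (x j) (a j) (b j) (m j) (m' j)

theorem sum_Iic_eq_RLV {k x : Fin n → ℝ} (hk : ∀ j, 1 ≤ k j) (a b m m' : Conf n) :
    ∑ l ∈ Finset.Iic (a ⊓ b), ccV k (a - l) l * ccV k (b - l) l * lkV x (a - l) (b - l) m m' =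
      RLV k x a b m m' := by
  unfold RLV
  have e : ∀ j, RL (k j) (x j) (a j) (b j) (m j) (m' j) =
      ∑ i ∈ Finset.range (min (a j) (b j) + 1), c1 (k j) (a j - i) i * c1 (k j) (b j - i) i *
        lk (x j) (a j - i) (b j - i) (m j) (m' j) := by
    intro j
    rw [RL_eq_min]
    refine Finset.sum_congr rfl fun i hi => ?_
    have hi' := Finset.mem_range.1 hi
    rw [AA_eq_c1 (hk j) (by omega) (by omega)]
  rw [Finset.prod_congr rfl fun j _ => e j, Finset.prod_univ_sum]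
  refine Finset.sum_congr ?_ fun l _ => ?_
  · ext l
    rw [Finset.mem_Iic, Fintype.mem_piFinset, le_inf_iff]
    constructor
    · rintro ⟨h1, h2⟩ j
      have h3 : l j ≤ a j := h1 j
      have h4 : l j ≤ b j := h2 j
      exact Finset.mem_range.2 (by omega)
    · intro h
      refine ⟨fun j => ?_, fun j => ?_⟩
      · have := Finset.mem_range.1 (h j)
        show l j ≤ a j
        omega
      · have := Finset.mem_range.1 (h j)
        show l j ≤ b j
        omega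
  · unfold P369W.ccV P369F.lkV
    rw [← Finset.prod_mul_distrib, ← Finset.prod_mul_distrib]
    rfl

theorem ampV_lossK {k x : Fin n → ℝ} (hk : ∀ j, 1 ≤ k j) (a b : Conf n) :
    ampV k (lossK x ρ) a b = ∑ m, ∑ m', ((RLV k x a b (te m) (te m') : ℝ) : ℂ) * ρ m m' := by
  unfold P369W.ampV P369F.lossK
  simp only [Finset.mul_sum]
  rw [Finset.sum_comm]
  refine Finset.sum_congr rfl fun m _ => ?_
  rw [Finset.sum_comm]
  refine Finset.sum_congr rfl fun m' _ => ?_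
  rw [← sum_Iic_eq_RLV hk, Complex.ofReal_sum, Finset.sum_mul]
  refine Finset.sum_congr rfl fun l _ => ?_
  push_cast
  ring

theorem CkV_lossV {k x : Fin n → ℝ} (hk : ∀ j, 1 ≤ k j) (a b : Conf n) :
    CkV (lossV x ρ) k a b = ∑ m, ∑ m', ((RLV k x a b (te m) (te m') : ℝ) : ℂ) * ρ m m' := by
  unfold P369W.CkV
  rw [P369F.ext_lossV]
  exact ampV_lossK hk a b

/-- weights of the loss channel, `n` modes -/
def wwV (θ : Fin n → ℝ) (a b l : Conf n) : ℝ := ∏ j, ww (θ j) (a j) (b j) (l j)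

theorem wwV_eq_lkV (θ : Fin n → ℝ) (a b l : Conf n) :
    lkV θ a b (a + l) (b + l) = wwV θ a b l := by
  unfold P369F.lkV wwV
  exact Finset.prod_congr rfl fun j _ => ww_eq_lk (θ j) (a j) (b j) (l j)

theorem hasSum_RLV {θ k x : Fin n → ℝ} (hθ0 : ∀ j, 0 ≤ θ j) (hθ1 : ∀ j, θ j ≤ 1)
    (hk : ∀ j, 1 ≤ k j) (hx : ∀ j, 0 ≤ x j) (a b m m' : Conf n) :
    HasSum (fun l : Conf n => wwV θ a b l * RLV k x (a + l) (b + l) m m')
      (RLV (fun j => kp (θ j) (k j)) (fun j => xp (θ j) (k j) (x j)) a b m m') := by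
  have h := P369A.hasSum_pi (n := n)
    (F := fun j c => ww (θ j) (a j) (b j) c * RL (k j) (x j) (a j + c) (b j + c) (m j) (m' j))
    (fun j => hasSum_RL (hθ0 j) (hθ1 j) (hk j) (hx j) (a j) (b j) (m j) (m' j))
  refine h.congr_fun fun l => ?_
  unfold wwV RLV
  rw [← Finset.prod_mul_distrib]
  rfl

/-- **L2**: the loss channel of the state `CkV (lossV x ρ) k`, in 809's form -/
theorem hasSum_loss_CkV {θ k x : Fin n → ℝ} (hθ0 : ∀ j, 0 ≤ θ j) (hθ1 : ∀ j, θ j ≤ 1)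
    (hk : ∀ j, 1 ≤ k j) (hx : ∀ j, 0 ≤ x j) (a b : Conf n) :
    HasSum (fun l : Conf n => ((lkV θ a b (a + l) (b + l) : ℝ) : ℂ) *
        CkV (lossV x ρ) k (a + l) (b + l))
      (CkV (lossV (fun j => xp (θ j) (k j) (x j)) ρ) (fun j => kp (θ j) (k j)) a b) := by
  have hk' : ∀ j, 1 ≤ kp (θ j) (k j) := fun j => by
    unfold kp
    have := mul_nonneg (hθ0 j) (sub_nonneg.2 (hk j))
    linarith only [this]
  rw [CkV_lossV hk']
  have h : HasSum (fun l : Conf n => ∑ m, ∑ m', ((wwV θ a b l *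
      RLV k x (a + l) (b + l) (te m) (te m') : ℝ) : ℂ) * ρ m m')
      (∑ m, ∑ m', ((RLV (fun j => kp (θ j) (k j)) (fun j => xp (θ j) (k j) (x j)) a b
        (te m) (te m') : ℝ) : ℂ) * ρ m m') := by
    refine hasSum_sum fun m _ => hasSum_sum fun m' _ => ?_
    exact (Complex.hasSum_ofReal.2 (hasSum_RLV hθ0 hθ1 hk hx a b (te m) (te m'))).mul_right _
  refine h.congr_fun fun l => ?_
  rw [CkV_lossV hk, wwV_eq_lkV, Finset.mul_sum]
  refine Finset.sum_congr rfl fun m _ => ?_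
  rw [Finset.mul_sum]
  refine Finset.sum_congr rfl fun m' _ => ?_
  push_cast
  ring

/-- the loss channel does nothing at transmissivity `1` -/
theorem lk_one (a b k k' : ℕ) : lk 1 a b k k' = if a = k ∧ b = k' then 1 else 0 := by
  unfold P369F.lk
  by_cases h : a = k ∧ b = k'
  · obtain ⟨rfl, rfl⟩ := h
    rw [if_pos ⟨by omega, le_rfl⟩, if_pos ⟨rfl, rfl⟩]
    simp
  · rw [if_neg h]
    by_cases h2 : k + b = k' + a ∧ a ≤ k
    · rw [if_pos h2]
      have h3 : k - a ≠ 0 := by omega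
      rw [sub_self, zero_pow h3, mul_zero]
    · rw [if_neg h2]

theorem lossV_one : lossV (fun _ => 1) ρ = ρ := by
  funext a b
  unfold P369F.lossV P369F.lkV
  have h : ∀ m m', ((∏ j, lk 1 (te a j) (te b j) (te m j) (te m' j) : ℝ) : ℂ) =
      if a = m ∧ b = m' then 1 else 0 := by
    intro m m'
    by_cases h : a = m ∧ b = m'
    · obtain ⟨rfl, rfl⟩ := h
      rw [if_pos ⟨rfl, rfl⟩, Finset.prod_eq_one fun j _ => by rw [lk_one, if_pos ⟨rfl, rfl⟩]]
      exact Complex.ofReal_one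
    · rw [if_neg h]
      have h2 : ∃ j, ¬ (te a j = te m j ∧ te b j = te m' j) := by
        by_contra h3
        push Not at h3
        exact h ⟨te_inj (funext fun j => (h3 j).1), te_inj (funext fun j => (h3 j).2)⟩
      obtain ⟨j, hj⟩ := h2
      rw [Finset.prod_eq_zero (Finset.mem_univ j) (by rw [lk_one, if_neg hj])]
      exact Complex.ofReal_zero
  rw [Finset.sum_congr rfl fun m _ => Finset.sum_congr rfl fun m' _ => by rw [h m m']]
  rw [Finset.sum_eq_single a, Finset.sum_eq_single b]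
  · rw [if_pos ⟨rfl, rfl⟩, one_mul]
  · intro m' _ hm'
    rw [if_neg fun h => hm' h.2.symm, zero_mul]
  · intro h; exact absurd (Finset.mem_univ _) h
  · intro m _ hm
    refine Finset.sum_eq_zero fun m' _ => ?_
    rw [if_neg fun h => hm h.1.symm, zero_mul]
  · intro h; exact absurd (Finset.mem_univ _) h

/-- L2 at `x = 1` -/
theorem hasSum_loss_CkV_one {θ k : Fin n → ℝ} (hθ0 : ∀ j, 0 ≤ θ j) (hθ1 : ∀ j, θ j ≤ 1)
    (hk : ∀ j, 1 ≤ k j) (a b : Conf n) :
    HasSum (fun l : Conf n => ((lkV θ a b (a + l) (b + l) : ℝ) : ℂ) * CkV ρ k (a + l) (b + l))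
      (CkV (lossV (fun j => xp (θ j) (k j) 1) ρ) (fun j => kp (θ j) (k j)) a b) := by
  have h := hasSum_loss_CkV (ρ := ρ) (x := fun _ => 1) hθ0 hθ1 hk (fun _ => zero_le_one) a b
  rw [lossV_one] at h
  exact h

end modes

end

end Vale.Agent.P369V8
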